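import Vale.Agent.P284.H378.CS
import Vale.Agent.P284.H573.DK.FinRep
import Vale.Agent.P284.H478.G.S

/-!
# P284 (helper988), program N, module N5: statements

`NPkg0` is `NPkg` without the field `just`. The chain LF, [C] only uses: `NPkg0`, the triviality of the
generic kernel (`GKer`), and rigidity on the generic fibres (`DKP`).
-/

open scoped Manifold ContDiff Topology InnerProductSpace ComplexConjugate
open Filter Set Metric

noncomputable section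

namespace Vale.Agent.P284.H988.N

open Vale.Agent.P272.K Vale.Agent.P284.H894 Vale.Agent.P284.H894.G Vale.Agent.P284.H894.V
  Vale.Agent.P284.H894.W Vale.Agent.P284.H573 Vale.Agent.P284.H213.Grp Vale.Agent.P284.H395
  Vale.Agent.P284.H619 Vale.Agent.P284.H625 Vale.Agent.P284.H378 Vale.Agent.P284.H478.G

/-- The normalised data without `just`. -/
structure NPkg0 (Γ : Type) [Group Γ] (q : ℕ) (c : Γ → Cm q) (K : Subgroup Γ) : Prop where
  lat : LatChar Γ q c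
  normal : K.Normal
  fg : Group.FG K
  inf : Infinite K
  sub : ∀ g ∈ K, c g = 0
  /-- `K` has finite index in `ker c` -/
  fi : ∃ F : Set Γ, F.Finite ∧ ∀ g, c g = 0 → ∃ f ∈ F, f⁻¹ * g ∈ K
  nvi : ¬ VirtIndicable K
  /-- centralizers of subgroups of finite index of `K` meet `ker c` trivially -/
  cent : ∀ K' : Subgroup Γ, K' ≤ K → (K'.subgroupOf K).FiniteIndex →
    ∀ g, c g = 0 → (∀ k ∈ K', g * k = k * g) → g = 1
  /-- the centralizer of `K` is central -/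
  central : ∀ g, (∀ k ∈ K, g * k = k * g) → ∀ h, g * h = h * g
  /-- maximality of the torus -/
  max : ∀ W : Submodule ℂ (Cm q),
    (∀ v ∈ W, v ∈ Submodule.span ℝ ({v | ∃ g, (∀ k ∈ K, g * k = k * g) ∧ c g = v} ∩ (W : Set (Cm q)))) →
    W = ⊥

theorem to0 {Γ : Type} [Group Γ] {q : ℕ} {c : Γ → Cm q} {K : Subgroup Γ} (h : NPkg Γ q c K) :
    NPkg0 Γ q c K :=
  ⟨h.lat, h.normal, h.fg, h.inf, h.sub, h.fi, h.nvi, h.cent, h.central, h.max⟩

theorem NPkg0.kpkg {Γ : Type} [Group Γ] {q : ℕ} {c : Γ → Cm q} {K : Subgroup Γ}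
    (h : NPkg0 Γ q c K) : KPkg Γ q c K :=
  ⟨h.lat, h.normal, h.fg, h.inf, h.sub, h.fi, h.nvi⟩

section
variable {n q r k s m : ℕ} {X E Γ W H : Type} [TopologicalSpace X] [ChartedSpace (Cm n) X]
  [TopologicalSpace E] [Group Γ] [MulAction Γ E]
  [NormedAddCommGroup W] [InnerProductSpace ℂ W] [NormedAddCommGroup H] [InnerProductSpace ℂ H]

/-- The kernel of the representation on the generic fibre is trivial. -/
def GKer (p : E → X) (F : E → Cm q) (K : Subgroup Γ) (π : Γ →* (W ≃ₗᵢ[ℂ] W))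
    (Θ : E → Chart n X → (Cm n →L[ℂ] W)) : Prop :=
  ∃ M : Set (Cm q), IsMeagre M ∧ ∀ t ∉ M, ∀ g ∈ K, (∀ y e, F y = t → At e (p y) →
    ∀ ξ ∈ VS p F y e, π g (Θ y e ξ) = Θ y e ξ) → g = 1

/-- **Rigidity (D_K), as a hypothesis**: if `h j`, `h' j` are near identity sheet maps at all good points
and `(h j)⁻¹ * h' j ∈ K`, then over the generic fibre `(h j)⁻¹ * h' j` fixes `Θ` eventually. -/
def DKP (p : E → X) (F : E → Cm q) (c : Γ → Cm q) (K : Subgroup Γ) (m : ℕ)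
    (v : E → Chart n X → (Fin (q + r) → Cm n) → H)
    (U : Γ → (H →ₗᵢ[ℂ] H)) (π : Γ →* (W ≃ₗᵢ[ℂ] W)) (Θ : E → Chart n X → (Cm n →L[ℂ] W))
    (N : Cm k →L[ℂ] Cm q) (s : ℕ) (𝒢 : Set E) : Prop :=
  ∀ h h' : ℕ → Γ, (∀ j, c (h' j) = c (h j)) → (∀ j, (h j)⁻¹ * h' j ∈ K) →
    NearId p F m v U π Θ c N s 𝒢 h → NearId p F m v U π Θ c N s 𝒢 h' →
  ∃ M : Set (Cm q), IsMeagre M ∧ ∀ t ∉ M, ∀ᶠ j in atTop, ∀ y e, F y = t → At e (p y) →
    ∀ ξ ∈ VS p F y e, π ((h j)⁻¹ * h' j) (Θ y e ξ) = Θ y e ξ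

end

/-- **C-STK** for `NPkg0`. -/
def CStk0Stmt : Prop :=
  ∀ (n : ℕ) (X : Type) [TopologicalSpace X] [T2Space X] [CompactSpace X] [ConnectedSpace X]
    [ChartedSpace (Cm n) X] [IsManifold 𝓘(ℂ, Cm n) ω X]
    (w : Chart n X → Cm n → Matrix (Fin n) (Fin n) ℂ) (_ : IsKahler w)
    (E Γ : Type) [TopologicalSpace E] [ConnectedSpace E] [Group Γ] [MulAction Γ E]
    (p : E → X) (_ : IsGalois Γ p)
    (q : ℕ) (F : E → Cm q) (c : Γ → Cm q) (K : Subgroup Γ) (_ : ∃ B, HolB p w F B)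
    (_ : ∀ g y, F (g • y) = F y + c g) (_ : NPkg0 Γ q c K)
    (H : Type) [NormedAddCommGroup H] [InnerProductSpace ℂ H] [CompleteSpace H]
    (R m : ℕ) (_ : 1 ≤ R) (_ : 1 ≤ m) (v : E → Chart n X → (Fin R → Cm n) → H)
    (_ : HForm n R m p H v)
    (s k : ℕ) (_ : 1 ≤ k) (D : LeafDat q s k H) (y₀ : E) (_ : LeafAt m p v F D y₀)
    (S : Subgroup Γ) (_ : ∀ g ∈ S, ∀ h ∈ K, g * h = h * g) (r₀ : ℝ) (_ : 0 < r₀)
    (_ : ∀ g ∈ S, ∀ y, ∀ b ∈ ball D.b₀ r₀, NZ p v y → Sh p v F D y b → Sh p v F D (g • y) b)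
    (_ : ∀ K₀ : Set E, IsCompact K₀ → (∀ y ∈ K₀, NZ p v y) →
      {a : Γ ⧸ S | ∃ g : Γ, (g : Γ ⧸ S) = a ∧ ∃ y ∈ K₀, ∃ b ∈ ball D.b₀ r₀,
        Sh p v F D (g⁻¹ • y) b}.Finite),
    False

/-- **LF** for `NPkg0`, with D_K and the kernel remark as hypotheses. -/
def LF0Stmt : Prop :=
  ∀ (n q r k s m : ℕ) (X : Type) [TopologicalSpace X] [T2Space X] [CompactSpace X]
    [ConnectedSpace X] [ChartedSpace (Cm n) X] [IsManifold 𝓘(ℂ, Cm n) ω X]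
    (w : Chart n X → Cm n → Matrix (Fin n) (Fin n) ℂ), IsKahler w → ∀ (E Γ : Type)
    [TopologicalSpace E] [ConnectedSpace E] [Group Γ] [MulAction Γ E] (p : E → X), IsGalois Γ p →
    ∀ (F : E → Cm q) (c : Γ → Cm q) (K : Subgroup Γ), (∃ B, HolB p w F B) →
      (∀ g y, F (g • y) = F y + c g) → NPkg0 Γ q c K →
    ∀ (W H : Type) [NormedAddCommGroup W] [InnerProductSpace ℂ W] [CompleteSpace W]
      [NormedAddCommGroup H] [InnerProductSpace ℂ H] [CompleteSpace H]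
      (π : Γ →* (W ≃ₗᵢ[ℂ] W)) (Θ : E → Chart n X → (Cm n →L[ℂ] W)),
      (∀ g, (∀ k ∈ K, g * k = k * g) → π g = 1) →
    ∀ (v : E → Chart n X → (Fin (q + r) → Cm n) → H) (U : Γ → (H →ₗᵢ[ℂ] H))
      (N : Cm k →L[ℂ] Cm q) (𝒢 : Set E), LeafE s p F m v U π Θ N 𝒢 →
      GKer p F K π Θ → DKP p F c K m v U π Θ N s 𝒢 →
    ∀ (D : LeafDat q s k H), (∀ x, D.N x = N) → ∀ S : Subgroup Γ, IsSub c K N S →
    ∃ r₀ > 0, ∀ K₀ : Set E, IsCompact K₀ → (∀ y ∈ K₀, NZ p v y) →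
      {a : Γ ⧸ S | ∃ g : Γ, (g : Γ ⧸ S) = a ∧ ∃ y ∈ K₀, ∃ b ∈ ball D.b₀ r₀,
        Sh p v F D (g⁻¹ • y) b}.Finite

/-- **[C]** for `NPkg0`, with D_K and the kernel remark as hypotheses. -/
def C0Stmt : Prop :=
  ∀ (n q r k s m : ℕ) (X : Type) [TopologicalSpace X] [T2Space X] [CompactSpace X]
    [ConnectedSpace X] [ChartedSpace (Cm n) X] [IsManifold 𝓘(ℂ, Cm n) ω X]
    (w : Chart n X → Cm n → Matrix (Fin n) (Fin n) ℂ), IsKahler w → ∀ (E Γ : Type)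
    [TopologicalSpace E] [ConnectedSpace E] [Group Γ] [MulAction Γ E] (p : E → X), IsGalois Γ p →
    ∀ (F : E → Cm q) (c : Γ → Cm q) (K : Subgroup Γ), (∃ B, HolB p w F B) →
      (∀ g y, F (g • y) = F y + c g) → NPkg0 Γ q c K →
    ∀ (W H : Type) [NormedAddCommGroup W] [InnerProductSpace ℂ W] [CompleteSpace W]
      [NormedAddCommGroup H] [InnerProductSpace ℂ H] [CompleteSpace H]
      (π : Γ →* (W ≃ₗᵢ[ℂ] W)) (Θ : E → Chart n X → (Cm n →L[ℂ] W)),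
      (∀ g, (∀ k ∈ K, g * k = k * g) → π g = 1) →
    ∀ (v : E → Chart n X → (Fin (q + r) → Cm n) → H) (U : Γ → (H →ₗᵢ[ℂ] H))
      (N : Cm k →L[ℂ] Cm q) (𝒢 : Set E), IsoE s p F m v U π Θ N 𝒢 →
      GKer p F K π Θ → DKP p F c K m v U π Θ N s 𝒢 → False

/-- **D_K** for `NPkg0` and groups `K` whose finite dimensional real representations have finite
range. -/
def DKPStmt : Prop :=
  ∀ (n q r k s m : ℕ) (X : Type) [TopologicalSpace X] [T2Space X] [CompactSpace X]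
    [ConnectedSpace X] [ChartedSpace (Cm n) X] [IsManifold 𝓘(ℂ, Cm n) ω X]
    (w : Chart n X → Cm n → Matrix (Fin n) (Fin n) ℂ) (E Γ : Type)
    [TopologicalSpace E] [ConnectedSpace E] [Group Γ] [MulAction Γ E] (p : E → X), IsGalois Γ p →
    ∀ (F : E → Cm q) (c : Γ → Cm q) (K : Subgroup Γ), (∃ B, HolB p w F B) →
      (∀ g y, F (g • y) = F y + c g) → NPkg0 Γ q c K → H573.DK.FinRep K →
      GenConn (n := n) p F →
    ∀ (W H : Type) [NormedAddCommGroup W] [InnerProductSpace ℂ W] [CompleteSpace W]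
      [NormedAddCommGroup H] [InnerProductSpace ℂ H] [CompleteSpace H]
      (π : Γ →* (W ≃ₗᵢ[ℂ] W)) (Θ : E → Chart n X → (Cm n →L[ℂ] W)) (M₀ : Set (Cm q)),
      IsMeagre M₀ → ThE p F K π Θ M₀ →
    ∀ (v : E → Chart n X → (Fin (q + r) → Cm n) → H) (U : Γ → (H →ₗᵢ[ℂ] H))
      (N : Cm k →L[ℂ] Cm q) (𝒢 : Set E), LeafE s p F m v U π Θ N 𝒢 →
      DKP p F c K m v U π Θ N s 𝒢

end Vale.Agent.P284.H988.N
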