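import Vale.Agent.P284.H378.Fin
import Vale.Agent.P284.H378.T.NulF
import Vale.Agent.P284.H988.N.Defs

/-!
# P284 (helper988), program N, module N5: D_K for `NPkg0` (proof of helper378 and helper885)
-/

open scoped Manifold ContDiff Topology InnerProductSpace ComplexConjugate
open Filter Set Metric

noncomputable section

set_option linter.unusedSectionVars false

namespace Vale.Agent.P284.H988.N

open Vale.Agent.P272.K Vale.Agent.P284.H894 Vale.Agent.P284.H894.G Vale.Agent.P284.H894.V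
  Vale.Agent.P284.H894.W Vale.Agent.P284.H573 Vale.Agent.P284.H213.Grp Vale.Agent.P284.H395
  Vale.Agent.P284.H619 Vale.Agent.P284.H625 Vale.Agent.P284.H378 Vale.Agent.P284.H573.DK
  Vale.Agent.P284.H10 Vale.Agent.P284.H478.G

section
variable {n q : ℕ} {X : Type} [TopologicalSpace X] [ChartedSpace (Cm n) X]
  {E : Type} [TopologicalSpace E] {p : E → X} {F : E → Cm q} {Γ : Type} [Group Γ] [MulAction Γ E]

/-- `K'` acts cocompactly on the fibre (only the lattice property and the finite index are used) -/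
theorem compact_fib0 [CompactSpace X] [T2Space X] (hG : IsGalois Γ p) (hF : HolE n p F)
    {c : Γ → Cm q} (hc : ∀ g y, F (g • y) = F y + c g) {K : Subgroup Γ} (hlat : LatChar Γ q c)
    (hKfi : ∃ F : Set Γ, F.Finite ∧ ∀ g, c g = 0 → ∃ f ∈ F, f⁻¹ * g ∈ K)
    {K' : Subgroup Γ} (hfi : (K'.subgroupOf K).FiniteIndex) (t : Cm q) :
    ∃ D : Set E, IsCompact D ∧ ∀ y : E, F y = t → ∃ k ∈ K', k • y ∈ D := by
  obtain ⟨D, hD, hcov⟩ := exists_compact n hG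
  obtain ⟨M, hM⟩ := (hD.image (hF.continuous hG.cov)).isBounded.exists_norm_le
  have hcone : c 1 = 0 := by
    have := hlat.add 1 1
    rw [mul_one] at this
    simpa using this
  -- finitely many values
  have hfin := hlat.disc (M + ‖t‖)
  obtain ⟨A, hA, hAcov⟩ := hKfi
  have : Finite (K ⧸ K'.subgroupOf K) := Subgroup.finite_quotient_of_finiteIndex
  set V : Set (Cm q) := {v | (∃ g, c g = v) ∧ ‖v‖ ≤ M + ‖t‖} with hV
  have hch : ∀ v : Cm q, ∃ g : Γ, v ∈ V → c g = v := by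
    intro v
    by_cases h : v ∈ V
    · obtain ⟨g, hg⟩ := h.1
      exact ⟨g, fun _ => hg⟩
    · exact ⟨1, fun h' => absurd h' h⟩
  choose gv hgv using hch
  -- finite set of multipliers
  set R : Set Γ := (fun x : (Cm q × Γ) × (K ⧸ K'.subgroupOf K) =>
    (gv x.1.1 * x.1.2 * (x.2.out : Γ))⁻¹) '' ((V ×ˢ A) ×ˢ univ) with hR
  have hRfin : R.Finite := ((hfin.prod hA).prod finite_univ).image _
  refine ⟨⋃ g ∈ R, (fun y => g • y) '' D, hRfin.isCompact_biUnion fun g _ =>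
    hD.image (hG.cont g), fun y hy => ?_⟩
  obtain ⟨g, hg⟩ := hcov y
  have h1 : c g ∈ V := by
    refine ⟨⟨g, rfl⟩, ?_⟩
    have h2 := hM (F (g • y)) ⟨_, hg, rfl⟩
    have h3 : c g = F (g • y) - t := by rw [hc, hy]; abel
    rw [h3]
    exact (norm_sub_le _ _).trans (by linarith)
  have h2 : c ((gv (c g))⁻¹ * g) = 0 := by
    have h3 := hlat.add (gv (c g)) ((gv (c g))⁻¹ * g)
    rw [mul_inv_cancel_left, hgv _ h1] at h3
    simpa using h3
  obtain ⟨a, ha, hak⟩ := hAcov _ h2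
  set κ : K := ⟨a⁻¹ * ((gv (c g))⁻¹ * g), hak⟩ with hκ
  set b : K ⧸ K'.subgroupOf K := QuotientGroup.mk κ with hb
  have h3 : (b.out)⁻¹ * κ ∈ K'.subgroupOf K := by
    rw [← QuotientGroup.eq]
    exact b.out_eq'
  have h4 : ((b.out : K) : Γ)⁻¹ * (a⁻¹ * ((gv (c g))⁻¹ * g)) ∈ K' := h3
  refine ⟨_, h4, ?_⟩
  refine mem_iUnion₂.2 ⟨(gv (c g) * a * (b.out : Γ))⁻¹, ⟨((c g, a), b), ⟨⟨h1, ha⟩, mem_univ _⟩, rfl⟩,
    g • y, hg, ?_⟩
  show (gv (c g) * a * (b.out : Γ))⁻¹ • g • y = _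
  rw [smul_smul]
  congr 1
  group

end

/-- **D_K** on one fibre, for `K` whose finite dimensional real representations have finite range. -/
theorem dk2_0 {n q : ℕ} {X : Type} [TopologicalSpace X] [T2Space X] [CompactSpace X]
    [ChartedSpace (Cm n) X] [IsManifold 𝓘(ℂ, Cm n) ω X] {E Γ : Type} [TopologicalSpace E]
    [Group Γ] [MulAction Γ E] {p : E → X} (hp : IsGalois Γ p)
    {w : Chart n X → Cm n → Matrix (Fin n) (Fin n) ℂ} {F : E → Cm q} {c : Γ → Cm q}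
    {K : Subgroup Γ} (hF : ∃ B, HolB p w F B) (hper : ∀ g y, F (g • y) = F y + c g)
    (hN : KPkg Γ q c K) (hfr : FinRep K)
    {t : Cm q} (hconn : IsConnected (F ⁻¹' {t})) (hreg : ∀ y, F y = t → Reg (n := n) p F y)
    {W : Type} [NormedAddCommGroup W] [InnerProductSpace ℂ W] [CompleteSpace W]
    {π : Γ →* (W ≃ₗᵢ[ℂ] W)} {Θ : E → Chart n X → (Cm n →L[ℂ] W)} {u : E → W}
    (hpot : VPot p F t W Θ u) (hequi : VEqui p F t K π Θ u)
    {𝒢 : Set E} (hGo : IsOpen 𝒢) (hGΓ : ∀ (g : Γ), ∀ y ∈ 𝒢, g • y ∈ 𝒢)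
    (hth : ∀ (y : E) (e : Chart n X), F y = t → At e (p y) → ∃ h : Cm n → ℂ,
        AnalyticAt ℂ h (e (p y)) ∧ (∃ᶠ y' in 𝓝 y, F y' = t ∧ h (e (p y')) ≠ 0) ∧
        ∀ᶠ y' in 𝓝 y, h (e (p y')) ≠ 0 → y' ∈ 𝒢)
    {r : ℕ} {U : ℕ → (W →ₗᵢ[ℂ] W)} (hs : ∀ z ∈ 𝒢, F z = t → SlideAt n p F Θ r U z) :
    ∀ᶠ j in atTop, ∀ y e, F y = t → At e (p y) → ∀ ξ ∈ VS p F y e, U j (Θ y e ξ) = Θ y e ξ := by
  obtain ⟨B, hF⟩ := hF
  obtain ⟨y₀, hy₀⟩ := hconn.nonempty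
  have : Nonempty E := ⟨y₀⟩
  have hK : ∀ k ∈ K, ∀ y, F (k • y) = F y := fun k hk y => by
    rw [hper, hN.sub k hk, add_zero]
  have hle : q ≤ n := by
    have he : At (chartAt (Cm n) (p y₀)) (p y₀) := ⟨chart_mem_atlas _ _, mem_chart_source _ _⟩
    obtain ⟨f, h1, h2⟩ := H221.holB_an hF y₀ he
    exact N_le_n (hreg y₀ hy₀ _ f he h2)
  obtain ⟨d, hd⟩ := Nat.exists_eq_add_of_le hle
  have hHE := H885.Ker.holE_of hF
  have hC : ∃ C : Set E, IsCompact C ∧ ∀ y, F y = t → ∃ k ∈ K, k • y ∈ C := by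
    obtain ⟨C, h1, h2⟩ := H221.exists_fund_K hp (hHE.continuous hp.cov) hper
      hN.lat.disc K hN.fi ‖t‖
    exact ⟨C, h1, fun y hy => h2 y (by rw [hy])⟩
  exact H885.DK.dk_fib hp hF hK hconn hreg hd hfr hC hpot hequi.form
    (fun y₀ hy₀ v hv => H378.T.nulF hp hHE hK hN.fg hfr
      (fun K' _ hfi => compact_fib0 hp hHE hper hN.lat hN.fi hfi t) hconn hreg hpot hequi y₀ hy₀ v hv)
    hGo (fun k _ y hy => hGΓ k y hy) hth hs

/-- **D_K** in the form `DKP`, for `K` whose finite dimensional real representations have finite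
range. -/
theorem dkp_of_finRep : DKPStmt := by
  have hGF := Vale.Agent.P284.H221.gfStmt
  intro n q r k s m X _ _ _ _ _ _ w E Γ _ _ _ _ p hp F c K hF hFe hK hfr hG W H _ _ _ _ _ _ π Θ
    M₀ hM₀ hTh v U N 𝒢 hL h h' hc hKl hn hn'
  obtain ⟨T, hT1, hT2, hT3⟩ := hG
  have hTm : IsMeagre T := IsNowhereDense.isMeagre (by
    rw [IsNowhereDense, hT1.closure_eq, hT2])
  obtain ⟨Mg, hMg, hgf⟩ := hGF n q X E Γ p hp w F c hF hFe hK.lat.disc 𝒢 hL.good hL.inv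
  refine ⟨T ∪ M₀ ∪ Mg, (hTm.union hM₀).union hMg, fun t ht => ?_⟩
  have htT : t ∉ T := fun h' => ht (Or.inl (Or.inl h'))
  have htM : t ∉ M₀ := fun h' => ht (Or.inl (Or.inr h'))
  have htg : t ∉ Mg := fun h' => ht (Or.inr h')
  obtain ⟨hconn, hregt⟩ := hT3 t htT
  obtain ⟨u, hV, hVE⟩ := hTh.pot t htM
  refine dk2_0 hp hF hFe hK.kpkg hfr hconn hregt hV hVE hL.good.isOpen hL.inv
    (hgf t htg hregt) (r := r) (U := fun l => (π ((h l)⁻¹ * h' l)).toLinearIsometry) ?_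
  intro z hz _
  obtain ⟨e', b', F', β', γ', τ', hL'⟩ := hL.chart z hz
  obtain ⟨ρ₁, hρ₁, h1⟩ := hn z hz e' b' F' β' γ' τ' hL'
  obtain ⟨ρ₂, hρ₂, h2⟩ := hn' z hz e' b' F' β' γ' τ' hL'
  exact slideAt_of hp.cov hL' hL.dim hL.Ninj (c := c) (h := h) (h' := h') hc hρ₁ hρ₂ h1 h2

/-- `FinRep K` for amenable groups -/
theorem finRep_folner {Γ : Type} [Group Γ] {q : ℕ} {c : Γ → Cm q} {K : Subgroup Γ}
    (hN : KPkg Γ q c K) (hFol : Folner Γ) : FinRep K :=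
  H573.DK.finRep_of hN.fg (H446.QC.folner_subgroup hFol K) hN.nvi

end Vale.Agent.P284.H988.N
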