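import Vale.Agent.P284.H338.Ind

/-!
# P284 (helper988), program N: infinite amenable groups do not have property (T)
-/

open scoped InnerProductSpace Pointwise ENNReal
open Set

noncomputable section

namespace Vale.Agent.P284.H988.N

open Vale.Agent.P284.H894.G Vale.Agent.P284.H119.Kaz Vale.Agent.P284.H338.Ind

section
variable {A : Type} [Group A]

/-- the regular representation -/
def reg : A →* (L2H A ℝ ≃ₗᵢ[ℝ] L2H A ℝ) where
  toFun g := tw (MulAction.toPerm g⁻¹) fun _ => LinearIsometryEquiv.refl ℝ ℝ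
  map_one' := by
    ext f x
    show f ((1 : A)⁻¹ • x) = f x
    rw [inv_one, one_smul]
  map_mul' g h := by
    ext f x
    show f ((g * h)⁻¹ • x) = f (h⁻¹ • g⁻¹ • x)
    rw [mul_inv_rev, mul_smul]

lemma reg_apply (g : A) (f : L2H A ℝ) (x : A) : reg g f x = f (g⁻¹ • x) := rfl

/-- An infinite amenable group does not have property (T). -/
theorem not_kazhdan_of_folner (hF : Folner A) [Infinite A] : ¬ Kazhdan A := by
  classical
  rintro ⟨S, ε, hε, h⟩
  have hε4 : 0 < ε ^ 2 / 4 := by positivity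
  obtain ⟨B, hB, hBne, hBF⟩ := hF ((S : Set A) ∪ (S : Set A)⁻¹)
    (S.finite_toSet.union S.finite_toSet.inv) (ε ^ 2 / 4) hε4
  have hN : (0 : ℝ) < B.ncard := by
    exact_mod_cast (Set.ncard_pos hB).2 hBne
  set c : ℝ := (√(B.ncard : ℝ))⁻¹ with hc
  have hc0 : 0 < c := inv_pos.2 (Real.sqrt_pos.2 hN)
  have hc2 : (B.ncard : ℝ) * c ^ 2 = 1 := by
    rw [hc, inv_pow, Real.sq_sqrt hN.le]
    exact mul_inv_cancel₀ hN.ne'
  obtain ⟨η, hη, hinv⟩ := h (L2H A ℝ) reg (vec B hB c) (by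
      have h1 := norm_vec hB c
      rw [Real.norm_eq_abs, sq_abs, hc2] at h1
      exact (sq_eq_sq₀ (norm_nonneg _) zero_le_one).1 (by rw [h1, one_pow])) (by
    intro g hg
    have h1 := norm_tw_sub hB c (MulAction.toPerm g⁻¹) (fun _ => LinearIsometryEquiv.refl ℝ ℝ)
      (δ := 0) (fun x hx _ => by simp)
    have h2 : (MulAction.toPerm g⁻¹ : Equiv.Perm A) ⁻¹' B = g • B := by
      ext x
      rw [mem_preimage, Set.mem_smul_set_iff_inv_smul_mem, MulAction.toPerm_apply]
    have h3 : (((g • B) \ B).ncard : ℝ) ≤ ε ^ 2 / 4 * B.ncard :=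
      hBF _ (Or.inl hg)
    have h4 : (((g⁻¹ • B) \ B).ncard : ℝ) ≤ ε ^ 2 / 4 * B.ncard :=
      hBF _ (Or.inr (by simpa using hg))
    have h5 : B \ (g • B) = g • ((g⁻¹ • B) \ B) := by
      rw [Set.smul_set_sdiff, smul_inv_smul]
    rw [h2, h5, Set.ncard_smul_set, Real.norm_eq_abs, sq_abs] at h1
    have h6 : ‖reg g (vec B hB c) - vec B hB c‖ ^ 2 ≤ ε ^ 2 := by
      refine h1.trans ?_
      have h8 : ((((g⁻¹ • B) \ B).ncard : ℝ) + ((g • B) \ B).ncard) * c ^ 2 ≤ ε ^ 2 / 2 := by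
        calc _ ≤ (ε ^ 2 / 4 * B.ncard + ε ^ 2 / 4 * B.ncard) * c ^ 2 :=
              mul_le_mul_of_nonneg_right (add_le_add h4 h3) (sq_nonneg c)
          _ = ε ^ 2 / 2 * (B.ncard * c ^ 2) := by ring
          _ = _ := by rw [hc2, mul_one]
      nlinarith [sq_nonneg ε]
    exact (sq_le_sq₀ (norm_nonneg _) hε.le).1 h6)
  apply hη
  -- an invariant function is constant
  have hconst : ∀ x : A, η x = η 1 := by
    intro x
    have h1 := congrArg (fun f : L2H A ℝ => f x) (hinv x)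
    simp only [reg_apply, smul_eq_mul, inv_mul_cancel] at h1
    exact h1.symm
  have h2 := (hasSum_norm_sq η).summable
  have h3 : (fun x : A => ‖η x‖ ^ 2) = fun _ => ‖η 1‖ ^ 2 := by
    funext x
    rw [hconst x]
  rw [h3, summable_const_iff] at h2
  have h4 : η 1 = 0 := by
    have := pow_eq_zero_iff (two_ne_zero) |>.1 h2
    exact norm_eq_zero.1 this
  apply Subtype.ext
  funext x
  show η x = 0
  rw [hconst x, h4]

end

end Vale.Agent.P284.H988.N
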