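import Vale.Agent.P284.H885.Ker2
import Vale.Agent.P284.H988.N.Defs

/-!
# P284 (helper988), program N, module N5: the kernel remark for `KPkg`, with `just` only for the generic
kernel (proof of helper885)
-/

open scoped Manifold ContDiff Topology InnerProductSpace ComplexConjugate
open Filter Set Metric

noncomputable section

namespace Vale.Agent.P284.H988.N

open Vale.Agent.P272.K Vale.Agent.P284.H894.G Vale.Agent.P284.H894.V Vale.Agent.P284.H894.W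
  Vale.Agent.P284.H213.Grp Vale.Agent.P284.H619 Vale.Agent.P284.H885.Ker Vale.Agent.P284.H478.G
  Vale.Agent.P284.H378

section
variable {n q : ℕ} {X : Type} [TopologicalSpace X] [ChartedSpace (Cm n) X]
  {E Γ : Type} [TopologicalSpace E] [Group Γ] [MulAction Γ E] {p : E → X}
  {w : Chart n X → Cm n → Matrix (Fin n) (Fin n) ℂ} {B : ℝ} {F : E → Cm q} {c : Γ → Cm q}
  {K : Subgroup Γ} {W : Type} [NormedAddCommGroup W] [InnerProductSpace ℂ W] [CompleteSpace W]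

/-- **Kernel remark, one fibre** (proof of helper885). -/
theorem ker_fin0 [T2Space X] [CompactSpace X] (hp : IsGalois Γ p) (hF : HolB p w F B) (hFe : ∀ g y, F (g • y) = F y + c g)
    (hK : KPkg Γ q c K) {t : Cm q} (hconn : IsConnected (F ⁻¹' {t}))
    (hreg : ∀ y, F y = t → Reg (n := n) p F y) {W : Type} [NormedAddCommGroup W]
    [InnerProductSpace ℂ W] (π : Γ →* (W ≃ₗᵢ[ℂ] W)) {Θ : E → Chart n X → (Cm n →L[ℂ] W)}
    {u : E → W} (hpot : VPot p F t W Θ u)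
    (hupot : ∀ k ∈ K, ∃ b : W, ∀ y, F y = t → u (k • y) = π k (u y) + b)
    {K' : Subgroup Γ} (hle : K' ≤ K)
    (hfi : (K'.subgroupOf K).FiniteIndex)
    (htriv : ∀ k ∈ K', ∀ y e, F y = t → At e (p y) → ∀ ξ ∈ VS p F y e, π k (Θ y e ξ) = Θ y e ξ) :
    ∀ y e, F y = t → At e (p y) → ∀ ξ ∈ VS p F y e, Θ y e ξ = 0 := by
  intro y₀ e₀ hy₀ he₀ ξ₀ hξ₀
  set v : W := Θ y₀ e₀ ξ₀ with hv
  have hvK : ∀ k ∈ K', π k v = v := fun k hk => htriv k hk y₀ e₀ hy₀ he₀ ξ₀ hξ₀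
  have hFK : ∀ k ∈ K, ∀ y, F y = t → F (k • y) = t := by
    intro k hk y hy
    rw [hFe, hK.sub k hk, add_zero, hy]
  -- the function `Re ⟪v', u⟫` is constant along the fibre if `v'` is invariant
  have hconst : ∀ v' : W, (∀ k ∈ K', π k v' = v') → ∀ y y', F y = t → F y' = t →
      (⟪v', u y⟫_ℂ).re = (⟪v', u y'⟫_ℂ).re := by
    intro v' hv'
    choose! b hb using hupot
    -- the translations
    have hmul : ∀ k ∈ K', ∀ k' ∈ K', (⟪v', b (k * k')⟫_ℂ).re = (⟪v', b k⟫_ℂ).re + (⟪v', b k'⟫_ℂ).re := by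
      intro k hk k' hk'
      have h1 := hb (k * k') (K.mul_mem (hle hk) (hle hk')) y₀ hy₀
      rw [mul_smul, hb k (hle hk) _ (hFK k' (hle hk') y₀ hy₀), hb k' (hle hk') y₀ hy₀, map_add,
        map_mul] at h1
      have h2 : b (k * k') = π k (b k') + b k := by
        have h3 : (π k * π k') (u y₀) = π k (π k' (u y₀)) := rfl
        rw [h3, add_assoc] at h1
        exact (add_left_cancel h1).symm
      rw [h2, inner_add_right]
      have h4 : ⟪v', π k (b k')⟫_ℂ = ⟪v', b k'⟫_ℂ := by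
        conv_lhs => rw [← hv' k hk]
        exact (π k).inner_map_map _ _
      rw [h4, Complex.add_re, add_comm]
    have hzero : ∀ k ∈ K', (⟪v', b k⟫_ℂ).re = 0 := fun k hk =>
      H221.hom_zero_sub hK.fg hK.nvi hle hfi (fun k => (⟪v', b k⟫_ℂ).re) hmul k hk
    have hFc : Continuous F := H221.holB_cont hp.cov hF
    refine H221.const_on_fib_re hp hF hFe hK.lat.disc K' (fun k hk => hK.sub k (hle hk))
      (H221.fi_trans hK.fi hfi) hconn.isPreconnected hreg (φ := fun y => (⟪v', u y⟫_ℂ).re) ?_ ?_ ?_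
    · -- continuity
      intro y hy
      have hy' : F y = t := hy
      obtain ⟨e, he⟩ : ∃ e : Chart n X, At e (p y) :=
        ⟨chartAt (Cm n) (p y), chart_mem_atlas _ _, mem_chart_source _ _⟩
      obtain ⟨g, h, hg, hh, hev⟩ := hpot.pot y e hy' he v'
      have hgc : ContinuousAt (fun y' => (g (e (p y')) + conj (h (e (p y')))).re) y := by
        have h1 : Tendsto (fun y' => e (p y')) (𝓝 y) (𝓝 (e (p y))) := (H221.map_ep' hp.cov he).le
        have h2 : ContinuousAt (fun y' => g (e (p y'))) y :=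
          hg.continuousAt.tendsto.comp h1
        have h3 : ContinuousAt (fun y' => h (e (p y'))) y :=
          hh.continuousAt.tendsto.comp h1
        exact Complex.continuous_re.continuousAt.comp
          (h2.add (Complex.continuous_conj.continuousAt.comp h3))
      refine (hgc.continuousWithinAt (s := F ⁻¹' {t})).congr_of_eventuallyEq ?_ ?_
      · filter_upwards [mem_nhdsWithin_of_mem_nhds hev, self_mem_nhdsWithin] with y' h1 h2
        show (⟪v', u y'⟫_ℂ).re = _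
        rw [(h1 h2).1]
      · show (⟪v', u y⟫_ℂ).re = _
        rw [(hev.self_of_nhds hy').1]
    · -- locally the real part of a holomorphic function
      intro y hy
      obtain ⟨e, he⟩ : ∃ e : Chart n X, At e (p y) :=
        ⟨chartAt (Cm n) (p y), chart_mem_atlas _ _, mem_chart_source _ _⟩
      obtain ⟨g, h, hg, hh, hev⟩ := hpot.pot y e hy he v'
      refine ⟨e, he, fun z => g z + h z, ?_, ?_⟩
      · filter_upwards [(hg.add hh).eventually_analyticAt] with z hz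
        exact hz.differentiableAt
      · filter_upwards [hev] with y' h1 h2
        show (⟪v', u y'⟫_ℂ).re = (g (e (p y')) + h (e (p y'))).re
        rw [(h1 (h2.trans hy)).1]
        simp
    · intro k hk y hy
      show (⟪v', u (k • y)⟫_ℂ).re = (⟪v', u y⟫_ℂ).re
      rw [hb k (hle hk) y hy, inner_add_right, Complex.add_re, hzero k hk, add_zero]
      have h4 : ⟪v', π k (u y)⟫_ℂ = ⟪v', u y⟫_ℂ := by
        conv_lhs => rw [← hv' k hk]
        exact (π k).inner_map_map _ _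
      rw [h4]
  -- the two real functions
  obtain ⟨g, h, hg, hh, hev⟩ := hpot.pot y₀ e₀ hy₀ he₀ v
  obtain ⟨f, ψ, φ, hf, hfan, hψ, hφ, hψ0, hφ0, hfψ, hvert⟩ :=
    exists_fib hp.cov (holE_of hF) he₀ (hreg y₀ hy₀)
  have hcI : ∀ k ∈ K', π k (Complex.I • v) = Complex.I • v := fun k hk => by
    rw [_root_.map_smul, hvK k hk]
  have hF0 : F y₀ = f (e₀ (p y₀)) := hf.self_of_nhds
  -- the points near `e₀ (p y₀)` on the fibre
  have hpull : ∀ Q : Cm n → Prop, (∀ᶠ y' in 𝓝 y₀, F y' = t → Q (e₀ (p y'))) →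
      ∀ᶠ s in 𝓝 (0 : Cm n), Q (ψ s) := by
    intro Q hQ
    have h1 : ∀ᶠ z in 𝓝 (e₀ (p y₀)), f z = t → Q z := by
      rw [← H221.ev_iff' hp.cov he₀]
      filter_upwards [hQ, hf] with y' h1 h2 h3
      exact h1 (by rw [h2, h3])
    have h2 : Tendsto ψ (𝓝 0) (𝓝 (e₀ (p y₀))) := by
      have := hψ.continuousAt.tendsto
      rwa [hψ0] at this
    filter_upwards [h2.eventually h1, hfψ] with s h3 h4
    exact h3 (h4.trans hy₀)
  have hre : ∀ᶠ s in 𝓝 (0 : Cm n), (g (ψ s) + h (ψ s)).re = (⟪v, u y₀⟫_ℂ).re := by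
    refine hpull (fun z => (g z + h z).re = (⟪v, u y₀⟫_ℂ).re) ?_
    filter_upwards [hev] with y' h1 h2
    rw [← hconst v hvK y' y₀ h2 hy₀, (h1 h2).1]
    simp
  have him : ∀ᶠ s in 𝓝 (0 : Cm n), (-Complex.I * (g (ψ s) - h (ψ s))).re =
      (⟪Complex.I • v, u y₀⟫_ℂ).re := by
    refine hpull (fun z => (-Complex.I * (g z - h z)).re = (⟪Complex.I • v, u y₀⟫_ℂ).re) ?_
    filter_upwards [hev] with y' h1 h2
    rw [← hconst _ hcI y' y₀ h2 hy₀, inner_smul_left, (h1 h2).1]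
    simp
    ring
  set η : Cm n := fderiv ℂ φ (e₀ (p y₀)) ξ₀ with hη
  have hη1 : fderiv ℂ ψ 0 η = ξ₀ := by
    have h1 := (hvert.self_of_nhds rfl).2 ξ₀ hξ₀
    rwa [hφ0] at h1
  have hψd : DifferentiableAt ℂ ψ 0 := hψ.differentiableAt
  have hgd : DifferentiableAt ℂ g (ψ 0) := by rw [hψ0]; exact hg.differentiableAt
  have hhd : DifferentiableAt ℂ h (ψ 0) := by rw [hψ0]; exact hh.differentiableAt
  have hgc : HasFDerivAt (fun s => g (ψ s)) ((fderiv ℂ g (ψ 0)).comp (fderiv ℂ ψ 0)) 0 :=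
    hgd.hasFDerivAt.comp 0 hψd.hasFDerivAt
  have hhc : HasFDerivAt (fun s => h (ψ s)) ((fderiv ℂ h (ψ 0)).comp (fderiv ℂ ψ 0)) 0 :=
    hhd.hasFDerivAt.comp 0 hψd.hasFDerivAt
  have e1 := fderiv_zero_of_re (hgc.add hhc).differentiableAt hre η
  have e2 := fderiv_zero_of_re ((hgc.sub hhc).const_mul (-Complex.I)).differentiableAt him η
  rw [(hgc.add hhc).fderiv] at e1
  rw [((hgc.sub hhc).const_mul (-Complex.I)).fderiv] at e2
  have e3 : fderiv ℂ g (e₀ (p y₀)) ξ₀ + fderiv ℂ h (e₀ (p y₀)) ξ₀ = 0 := by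
    have : ((fderiv ℂ g (ψ 0)).comp (fderiv ℂ ψ 0) + (fderiv ℂ h (ψ 0)).comp (fderiv ℂ ψ 0)) η =
      fderiv ℂ g (e₀ (p y₀)) ξ₀ + fderiv ℂ h (e₀ (p y₀)) ξ₀ := by
      rw [ContinuousLinearMap.add_apply, ContinuousLinearMap.comp_apply,
        ContinuousLinearMap.comp_apply, hη1, hψ0]
    rw [← this]
    exact e1
  have e4 : -Complex.I * (fderiv ℂ g (e₀ (p y₀)) ξ₀ - fderiv ℂ h (e₀ (p y₀)) ξ₀) = 0 := by
    have : (-Complex.I • ((fderiv ℂ g (ψ 0)).comp (fderiv ℂ ψ 0) -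
        (fderiv ℂ h (ψ 0)).comp (fderiv ℂ ψ 0))) η =
      -Complex.I * (fderiv ℂ g (e₀ (p y₀)) ξ₀ - fderiv ℂ h (e₀ (p y₀)) ξ₀) := by
      rw [ContinuousLinearMap.smul_apply, ContinuousLinearMap.sub_apply,
        ContinuousLinearMap.comp_apply,
        ContinuousLinearMap.comp_apply, hη1, hψ0, smul_eq_mul]
    rw [← this]
    exact e2
  have e5 : fderiv ℂ g (e₀ (p y₀)) ξ₀ - fderiv ℂ h (e₀ (p y₀)) ξ₀ = 0 := by
    rcases mul_eq_zero.1 e4 with h1 | h1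
    · exact absurd h1 (neg_ne_zero.2 Complex.I_ne_zero)
    · exact h1
  have e6 : fderiv ℂ g (e₀ (p y₀)) ξ₀ = 0 := by
    have h1 : (2 : ℂ) * fderiv ℂ g (e₀ (p y₀)) ξ₀ = 0 := by linear_combination e3 + e5
    rcases mul_eq_zero.1 h1 with h2 | h2
    · exact absurd h2 two_ne_zero
    · exact h2
  have e7 := (hev.self_of_nhds hy₀).2 ξ₀ hξ₀
  rw [e6, ← hv] at e7
  exact inner_self_eq_zero.1 e7.symm


/-- **(H3) Kernel remark, generic fibres** (proof of helper885): `just` is only needed for the generic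
kernel `N₀`. -/
theorem ker_generic0 [T2Space X] [CompactSpace X] [IsManifold 𝓘(ℂ, Cm n) ω X] [ConnectedSpace E]
    (hp : IsGalois Γ p) (hF : HolB p w F B) (hFe : ∀ g y, F (g • y) = F y + c g)
    (hK : KPkg Γ q c K) {T : Set (Cm q)} (hTc : IsClosed T) (hT : interior T = ∅)
    (hfib : ∀ t ∉ T, IsConnected (F ⁻¹' {t}) ∧ ∀ y, F y = t → Reg (n := n) p F y)
    (π : Γ →* (W ≃ₗᵢ[ℂ] W)) {Θ : E → Chart n X → (Cm n →L[ℂ] W)} (hΘ : RelT p F W Θ)
    (hequi : ∀ g y e, Reg (n := n) p F y → At e (p y) → ∀ ξ ∈ VS p F y e,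
      Θ (g • y) e ξ = π g (Θ y e ξ))
    (hpot : Dense {t | t ∉ T ∧ ∃ u : E → W, VPot p F t W Θ u ∧
      ∀ k ∈ K, ∃ b : W, ∀ y, F y = t → u (k • y) = π k (u y) + b})
    (hne : ∃ y e, Reg (n := n) p F y ∧ At e (p y) ∧ ∃ ξ ∈ VS p F y e, Θ y e ξ ≠ 0)
    (hjust : ∀ N₀ : Subgroup Γ, (∀ k, k ∈ N₀ ↔ k ∈ K ∧ ∀ y, Reg (n := n) p F y → y ∈ Fix p F π Θ k) →
      N₀.Normal → N₀ ≤ K → N₀ ≠ ⊥ → (N₀.subgroupOf K).FiniteIndex) :
    ∃ M : Set (Cm q), IsMeagre M ∧ T ⊆ M ∧ ∀ t ∉ M, ∀ k ∈ K,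
      (∀ y e, F y = t → At e (p y) → ∀ ξ ∈ VS p F y e, π k (Θ y e ξ) = Θ y e ξ) → k = 1 := by
  classical
  have hPer : H494.Per p w F c := ⟨⟨B, hF⟩, hFe, hK.lat.disc⟩
  have hFc : Continuous F := H221.holB_cont hp.cov hF
  obtain ⟨y₁, e₁, hy₁, he₁, ξ₁, hξ₁, hne₁⟩ := hne
  have hconn : IsPreconnected {y : E | Reg (n := n) p F y} := reg_conn hp.cov hF ⟨y₁, hy₁⟩
  have hVSg : ∀ (g : Γ) (y : E) (e : Chart n X), At e (p y) → ∀ ξ, ξ ∈ VS p F y e →
      ξ ∈ VS p F (g • y) e := by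
    intro g y e he ξ hξ
    obtain ⟨f, h1, h2⟩ := H221.holB_an hF y he
    have h3 : ∀ᶠ y' in 𝓝 (g • y), F y' = (fun z => f z + c g) (e (p y')) := by
      have h4 : Tendsto (fun y' => g⁻¹ • y') (𝓝 (g • y)) (𝓝 y) := by
        have := (hp.cont g⁻¹).tendsto (g • y)
        simpa using this
      filter_upwards [h4.eventually h2] with y' hy'
      have h5 := hFe g (g⁻¹ • y')
      rw [smul_inv_smul] at h5
      rw [h5, hy', H10.p_smul' hp]
    rw [mem_VS hp.cov (by rw [H10.p_smul' hp]; exact he) (f := fun z => f z + c g) h3,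
      H10.p_smul' hp, fderiv_add_const]
    exact (mem_VS hp.cov he h2).1 hξ
  -- the generic kernel
  let N₀ : Subgroup Γ :=
    { carrier := {k | k ∈ K ∧ ∀ y, Reg (n := n) p F y → y ∈ Fix p F π Θ k}
      mul_mem' := by
        rintro a b ⟨ha, ha'⟩ ⟨hb, hb'⟩
        refine ⟨K.mul_mem ha hb, fun y hy => ⟨hy, fun e he ξ hξ => ?_⟩⟩
        rw [map_mul]
        show π a (π b (Θ y e ξ)) = Θ y e ξ
        rw [(hb' y hy).2 e he ξ hξ, (ha' y hy).2 e he ξ hξ]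
      one_mem' := ⟨K.one_mem, fun y hy => ⟨hy, fun e he ξ hξ => by rw [map_one]; rfl⟩⟩
      inv_mem' := by
        rintro a ⟨ha, ha'⟩
        refine ⟨K.inv_mem ha, fun y hy => ⟨hy, fun e he ξ hξ => ?_⟩⟩
        have h1 := (ha' y hy).2 e he ξ hξ
        have h2 : π a⁻¹ (π a (Θ y e ξ)) = Θ y e ξ := by
          have h3 : (π a⁻¹ * π a) (Θ y e ξ) = Θ y e ξ := by
            rw [← map_mul, inv_mul_cancel, map_one]; rfl
          exact h3
        rw [h1] at h2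
        exact h2 }
  have hN₀ : ∀ k, k ∈ N₀ ↔ k ∈ K ∧ ∀ y, Reg (n := n) p F y → y ∈ Fix p F π Θ k := fun k => Iff.rfl
  have hnormal : N₀.Normal := by
    refine ⟨fun k hk g => ?_⟩
    rw [hN₀] at hk ⊢
    refine ⟨hK.normal.conj_mem k hk.1 g, fun y hy => ⟨hy, fun e he ξ hξ => ?_⟩⟩
    have hy' : Reg (n := n) p F (g⁻¹ • y) := (hPer.reg_smul_iff hp g⁻¹ y).2 hy
    have he' : At e (p (g⁻¹ • y)) := by rw [H10.p_smul' hp]; exact he
    have hξ' : ξ ∈ VS p F (g⁻¹ • y) e := hVSg g⁻¹ y e he ξ hξ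
    have h1 := (hk.2 _ hy').2 e he' ξ hξ'
    have h2 : Θ y e ξ = π g (Θ (g⁻¹ • y) e ξ) := by
      rw [← hequi g (g⁻¹ • y) e hy' he' ξ hξ', smul_inv_smul]
    have h3 : π (g * k * g⁻¹) (π g (Θ (g⁻¹ • y) e ξ)) = π g (π k (Θ (g⁻¹ • y) e ξ)) := by
      have h4 : (π (g * k * g⁻¹) * π g) (Θ (g⁻¹ • y) e ξ) = (π g * π k) (Θ (g⁻¹ • y) e ξ) := by
        rw [← map_mul, ← map_mul]
        congr 2
        group
      exact h4
    rw [h2, h3, h1]
  have hle : N₀ ≤ K := fun k hk => hk.1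
  -- the generic kernel is trivial
  have hbot : N₀ = ⊥ := by
    by_contra hb
    have hfi := hjust N₀ hN₀ hnormal hle hb
    -- nonzero values near `y₁`
    obtain ⟨f, hf1, hf2⟩ := H221.holB_an hF y₁ he₁
    obtain ⟨A, hA1, hA2⟩ := hΘ.hol y₁ e₁ hy₁ he₁
    obtain ⟨P, hP1, hP2⟩ := vert_proj hf1 (hy₁ e₁ f he₁ hf2)
    have hVS₁ : ∀ ξ, ξ ∈ VS p F y₁ e₁ ↔ fderiv ℂ f (e₁ (p y₁)) ξ = 0 :=
      fun ξ => mem_VS hp.cov he₁ hf2
    have h1 : ∀ᶠ y in 𝓝 y₁, A (e₁ (p y)) (P (e₁ (p y)) ξ₁) ≠ 0 := by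
      have h2 : ContinuousAt (fun z => A z (P z ξ₁)) (e₁ (p y₁)) :=
        hA1.continuousAt.clm_apply (hP1.continuousAt.clm_apply continuousAt_const)
      have h3 : A (e₁ (p y₁)) (P (e₁ (p y₁)) ξ₁) ≠ 0 := by
        rw [hP2.self_of_nhds.2 ξ₁ ((hVS₁ ξ₁).1 hξ₁), ← hA2.self_of_nhds ξ₁ hξ₁]
        exact hne₁
      exact (H221.ev_iff' hp.cov he₁ (Q := fun z => A z (P z ξ₁) ≠ 0)).2 (h2.eventually_ne h3)
    have hP3 : ∀ᶠ y in 𝓝 y₁, fderiv ℂ f (e₁ (p y)) (P (e₁ (p y)) ξ₁) = 0 :=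
      (H221.ev_iff' hp.cov he₁ (Q := fun z => fderiv ℂ f z (P z ξ₁) = 0)).2
        (hP2.mono fun z hz => hz.1 ξ₁)
    have hAt : ∀ᶠ y in 𝓝 y₁, At e₁ (p y) := by
      filter_upwards [(hp.cov.continuous.continuousAt).eventually
        (e₁.open_source.mem_nhds he₁.2)] with y hy
      exact ⟨he₁.1, hy⟩
    have h2 : ∀ᶠ y in 𝓝 y₁, At e₁ (p y) ∧ ∃ ξ ∈ VS p F y e₁, Θ y e₁ ξ ≠ 0 := by
      filter_upwards [hAt, hP3, hf2.eventually_nhds, hA2, h1] with y a1 a2 a3 a4 a5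
      have h3 : P (e₁ (p y)) ξ₁ ∈ VS p F y e₁ := (mem_VS hp.cov a1 a3).2 a2
      exact ⟨a1, _, h3, by rw [a4 _ h3]; exact a5⟩
    have h3 : F '' {y | At e₁ (p y) ∧ ∃ ξ ∈ VS p F y e₁, Θ y e₁ ξ ≠ 0} ∈ 𝓝 (F y₁) := by
      rw [← reg_map hp.cov hF hy₁]
      exact image_mem_map h2
    obtain ⟨t, ht1, ⟨y, ⟨hy, ξ, hξ, hΘne⟩, hyt⟩⟩ := (hpot.inter_nhds_nonempty h3)
    obtain ⟨htT, u, hu1, hu2⟩ := ht1
    refine hΘne (ker_fin0 hp hF hFe hK (hfib t htT).1 (hfib t htT).2 π hu1 hu2 hle hfi ?_ y e₁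
      hyt hy ξ hξ)
    intro k hk y' e' hy' he' ξ' hξ'
    exact (((hN₀ k).1 hk).2 y' ((hfib t htT).2 y' hy')).2 e' he' ξ' hξ'
  -- the bad sets
  set S : K → Set (Cm q) := fun k => {t | t ∉ T ∧ (k : Γ) ≠ 1 ∧ ∀ y, F y = t →
    y ∈ Fix p F π Θ (k : Γ)} with hS
  have hSn : ∀ k : K, IsNowhereDense (S k) := by
    intro k
    by_cases hk1 : (k : Γ) = 1
    · have : S k = ∅ := by
        refine eq_empty_of_forall_notMem fun t ht => ht.2.1 hk1
      rw [this]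
      exact isNowhereDense_empty
    by_contra hnd
    have h1 : (interior (closure (S k))).Nonempty := nonempty_iff_ne_empty.2 hnd
    -- `S k` is closed in the complement of `T`
    have hcl : ∀ t, t ∉ T → t ∈ closure (S k) → ∀ y, F y = t → y ∈ Fix p F π Θ (k : Γ) := by
      intro t htT htc y hyt
      have hyr := (hfib t htT).2 y hyt
      refine fix_closed hp hF hΘ π k hyr ?_
      rw [_root_.mem_closure_iff_nhds]
      intro V hV
      have h2 : F '' V ∈ 𝓝 t := by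
        rw [← hyt, ← reg_map hp.cov hF hyr]
        exact image_mem_map hV
      obtain ⟨t', ht'1, ht'2⟩ := mem_closure_iff_nhds.1 htc _ h2
      obtain ⟨y', hy'1, hy'2⟩ := ht'1
      exact ⟨y', hy'1, ht'2.2.2 y' hy'2⟩
    have hTd : Dense Tᶜ := interior_eq_empty_iff_dense_compl.1 hT
    obtain ⟨t, ht1, ht2⟩ := hTd.inter_open_nonempty _ isOpen_interior h1
    obtain ⟨y, hy⟩ := (hfib t ht2).1.nonempty
    have hyt : F y = t := hy
    have h2 : (interior (Fix p F π Θ (k : Γ))).Nonempty := by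
      refine ⟨y, mem_interior.2 ⟨F ⁻¹' (interior (closure (S k)) ∩ Tᶜ), ?_,
        (isOpen_interior.inter hTc.isOpen_compl).preimage hFc, ?_⟩⟩
      · rintro y' ⟨h3, h4⟩
        exact hcl (F y') h4 (interior_subset h3) y' rfl
      · show F y ∈ interior (closure (S k)) ∩ Tᶜ
        rw [hyt]
        exact ⟨ht1, ht2⟩
    have h3 : (k : Γ) ∈ N₀ := (hN₀ _).2 ⟨k.2, fix_ident hp hF hconn hΘ π k h2⟩
    rw [hbot] at h3
    exact hk1 h3
  have : Countable K := countable_of_fg hK.fg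
  refine ⟨T ∪ ⋃ k : K, S k, ?_, subset_union_left, ?_⟩
  · refine IsMeagre.union ?_ (isMeagre_iUnion fun k => (hSn k).isMeagre)
    refine IsNowhereDense.isMeagre ?_
    rw [IsNowhereDense, hTc.closure_eq, hT]
  · intro t ht k hk hfix
    by_contra hk1
    apply ht
    have htT : t ∉ T := fun h => ht (Or.inl h)
    refine Or.inr (mem_iUnion.2 ⟨⟨k, hk⟩, htT, hk1, fun y hyt => ⟨(hfib t htT).2 y hyt, ?_⟩⟩)
    intro e he ξ hξ
    exact hfix y e hyt he ξ hξ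


/-- The generic kernel of `ThE` data is trivial if `just` holds for the generic kernel `N₀`. -/
theorem gker_of [T2Space X] [CompactSpace X] [IsManifold 𝓘(ℂ, Cm n) ω X] [ConnectedSpace E]
    (hp : IsGalois Γ p) (hF : ∃ B, HolB p w F B) (hFe : ∀ g y, F (g • y) = F y + c g)
    (hK : KPkg Γ q c K) (hG : GenConn (n := n) p F) {π : Γ →* (W ≃ₗᵢ[ℂ] W)}
    {Θ : E → Chart n X → (Cm n →L[ℂ] W)} {M₀ : Set (Cm q)} (hM₀ : IsMeagre M₀)
    (hΘ : ThE p F K π Θ M₀)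
    (hne : ∃ y e, Reg (n := n) p F y ∧ At e (p y) ∧ ∃ ξ ∈ VS p F y e, Θ y e ξ ≠ 0)
    (hjust : ∀ N₀ : Subgroup Γ, (∀ k, k ∈ N₀ ↔ k ∈ K ∧ ∀ y, Reg (n := n) p F y → y ∈ Fix p F π Θ k) →
      N₀.Normal → N₀ ≤ K → N₀ ≠ ⊥ → (N₀.subgroupOf K).FiniteIndex) :
    GKer p F K π Θ := by
  obtain ⟨B, hB⟩ := hF
  obtain ⟨T, hT1, hT2, hT3⟩ := hG
  have hTm : IsMeagre T := IsNowhereDense.isMeagre (by
    rw [IsNowhereDense, hT1.closure_eq, hT2])
  have hd : Dense {t | t ∉ T ∧ ∃ u : E → W, VPot p F t W Θ u ∧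
      ∀ k ∈ K, ∃ b : W, ∀ y, F y = t → u (k • y) = π k (u y) + b} := by
    have h1 : IsMeagre (T ∪ M₀) := hTm.union hM₀
    refine (dense_of_mem_residual h1).mono fun t ht => ?_
    have ht1 : t ∉ T := fun h => ht (Or.inl h)
    have ht2 : t ∉ M₀ := fun h => ht (Or.inr h)
    obtain ⟨u, h2, h3⟩ := hΘ.pot t ht2
    exact ⟨ht1, u, h2, h3.pot⟩
  obtain ⟨M, h1, -, h2⟩ := ker_generic0 hp hB hFe hK hT1 hT2 hT3 π ⟨hΘ.hol, hΘ.change⟩
    hΘ.equi hd hne hjust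
  exact ⟨M, h1, h2⟩

end

end Vale.Agent.P284.H988.N
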