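import Vale.Agent.P284.H335.CStkFin
import Vale.Agent.P284.H988.N.Defs

/-!
# P284 (helper988), program N, module N5: C-STK for `NPkg0` (the proof of helper335, which uses only the
field `max`)
-/

open scoped Manifold ContDiff Topology ComplexConjugate ComplexOrder InnerProductSpace
open Filter Set Metric

noncomputable section

namespace Vale.Agent.P284.H988.N

open Vale.Agent.P272.K Vale.Agent.P284.H573 Vale.Agent.P284.H395 Vale.Agent.P284.H894
  Vale.Agent.P284.H894.G Vale.Agent.P284.H894.V Vale.Agent.P284.H894.W Vale.Agent.P284.H998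
  Vale.Agent.P284.H335

/-- **C-STK** from the analytic part and the potential -/
theorem cstk0_of (hA : StkAStmt) (hU : StkUStmt) : CStk0Stmt := by
  intro n X _ _ _ _ _ _ w hw E Γ _ _ _ _ p hG q F c K hB hFc hN H _ _ _ R m hR hm v hv s k hk D
    y₀ hL S hSK r₀ hr₀ hSh hLF
  obtain ⟨B, hB⟩ := hB
  have hFa : ∀ (y : E) (e : Chart n X), At e (p y) → ∃ f : Cm n → Cm q,
      AnalyticAt ℂ f (e (p y)) ∧ ∀ᶠ y' in 𝓝 y, F y' = f (e (p y')) := fun y e he =>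
    Vale.Agent.P284.H221.holB_an hB y he
  obtain ⟨e₀, b, β₀, f₀, he₀, hb, hbs, hβ₀, hβ₀s, hβ₀b, hf₀e, hf₀, hnf, hQ, hQs⟩ := hL
  have hNF : NFAt p R m s v y₀ := ⟨e₀, b, β₀, D.γ, he₀, hb, hbs, hβ₀, by rw [hβ₀b]; exact D.γan,
    by rw [hβ₀b]; exact D.imm.1, hnf⟩
  have hd := dec_of_nf hR hm hG.cov hv hNF
  obtain ⟨hZcl, ρ, C, u, hρ, hu, hform⟩ := hU n X w hw E p hG.cov hG.surj H R m s hR hm v hv y₀ hNF
  set Z : Set X := {x | ∃ y, p y = x ∧ ¬ NZ p v y} with hZ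
  have hZn : ∀ y, p y ∉ Z ↔ NZ p v y := by
    intro y
    constructor
    · intro h
      by_contra h1
      exact h ⟨y, rfl, h1⟩
    · rintro h ⟨y', h1, h2⟩
      exact h2 (nz_proj hv h1.symm h)
  -- the constants
  obtain ⟨r₁, l, L, g, hc₁⟩ := exists_crd D.γan D.imm
  obtain ⟨r₂, Qe, hr₂, hE₂⟩ := exists_eqs D.Nan D.inj
  obtain ⟨r₃, hr₃, ht₃⟩ := Metric.eventually_nhds_iff_ball.1 D.tan.eventually_analyticAt
  set r : ℝ := min (min r₀ r₁) (min r₂ r₃) with hr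
  have hr0 : 0 < r := lt_min (lt_min hr₀ hc₁.r_pos) (lt_min hr₂ hr₃)
  have hrr₀ : r ≤ r₀ := (min_le_left _ _).trans (min_le_left _ _)
  have hc : Crd D.γ D.b₀ r l L g := hc₁.mono hr0 ((min_le_left _ _).trans (min_le_right _ _))
  have hE : Eqs D.N Qe D.b₀ r := hE₂.mono ((min_le_right _ _).trans (min_le_left _ _))
  have ht : ∀ b ∈ ball D.b₀ r, AnalyticAt ℂ D.t b := fun b hb =>
    ht₃ b (ball_subset_ball ((min_le_right _ _).trans (min_le_right _ _)) hb)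
  have hSh' : ∀ g ∈ S, ∀ y, ∀ b ∈ ball D.b₀ r, NZ p v y → Sh p v F D y b →
      Sh p v F D (g • y) b := fun g hg y b hb => hSh g hg y b (ball_subset_ball hrr₀ hb)
  let bump : ContDiffBump D.b₀ := ⟨r / 4, r / 2, by linarith, by linarith⟩
  set φ : Cm s → ℝ := fun b => bump b with hφd
  have hφs : ContDiff ℝ ∞ φ := bump.contDiff
  have hφ0 : ∀ b, 0 ≤ φ b := fun b => bump.nonneg
  have hφ : ∀ b, φ b ≠ 0 → b ∈ closedBall D.b₀ (r / 2) := by
    intro b hb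
    have h1 : b ∈ Function.support bump := hb
    rw [bump.support_eq] at h1
    exact ball_subset_closedBall h1
  have hρ₀ : r / 2 < r := by linarith
  -- the starting point
  have hx₀b : D.b₀ ∈ ball D.b₀ r := mem_ball_self hr0
  have hNZ₀ : NZ p v y₀ := by
    obtain ⟨ξ, hξ⟩ := exists_frame hbs
    refine ⟨e₀, he₀, ξ, ?_⟩
    rw [hnf.self_of_nhds ξ, hβ₀b]
    exact smul_ne_zero (pow_ne_zero _ hξ) D.imm.1
  have hsh₀ : Sh p v F D y₀ D.b₀ := by
    refine ⟨e₀, β₀, he₀, hβ₀, hβ₀b, ?_⟩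
    filter_upwards [hnf, hQ] with y a1 a2
    exact ⟨fun ξ => ⟨_, a1 ξ⟩, a2⟩
  have hAct₀ : Act p v F D r y₀ := ⟨_, hx₀b, hsh₀⟩
  obtain ⟨ξ₀, hξ₀⟩ := nz_chart hv hNZ₀ he₀
  obtain ⟨V, f, hV, hVe, hrep⟩ := exists_rep hm hG.cov hv hd hFa he₀ hξ₀
  have hb₀ : bOf p v F D r y₀ = D.b₀ :=
    sh_unique hG.cov hv hc he₀ hrep (bOf_mem hAct₀) hx₀b (bOf_sh hAct₀) hsh₀
  -- the kernel of `ρ` at the starting point
  have hker : ∀ ξ : Cm n, (∀ k, ∑ j, ρ e₀ (e₀ (p y₀)) j k * ξ j = 0) ↔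
      fderiv ℂ β₀ (e₀ (p y₀)) ξ = 0 := by
    intro ξ
    rw [hform y₀ e₀ he₀ V hV hVe ξ₀ hξ₀]
    refine ker_iff (W := fun z => V (z, ξ₀)) (γ := D.γ) hrep.an hrep.ne hβ₀ (by rw [hβ₀b]; exact D.γan)
      (by rw [hβ₀b]; exact D.imm) ?_ ξ
    rw [← ev_iff hG.cov he₀]
    filter_upwards [hVe, hnf] with y a1 a2
    exact ⟨_, by rw [← a1, a2]⟩
  have hrank : (ρ e₀ (e₀ (p y₀))).rank = s := rank_eq hβ₀s hker
  -- the key step
  have key : ∀ lr : Cm q →L[ℝ] ℝ, (∀ a ∈ S, lr (c a) = 0) → ∀ x ∈ D.Q D.b₀, lr x = 0 := by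
    intro lr hlr x hx
    obtain ⟨F', G', hF'2, hG'0, hF's, hG'c, hfor, hG'p⟩ := coset_sum hG hZcl S
      (PhiF p v F D r φ lr) (PsiF p v F D r φ) ρ (alphaF p F lr)
      (by
        intro a ha y hy
        rw [hZn] at hy
        obtain ⟨h1, h2⟩ := act_smul hm hG hv hd hFa hc S hSh' ha hy
        have h3 : PsiF p v F D r φ (a • y) = PsiF p v F D r φ y := by
          by_cases h4 : Act p v F D r y
          · rw [PsiF, PsiF, if_pos h4, if_pos (h1.2 h4), h2 h4]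
          · rw [PsiF, PsiF, if_neg h4, if_neg fun h5 => h4 (h1.1 h5)]
        refine ⟨?_, h3⟩
        by_cases h4 : Act p v F D r y
        · rw [PhiF, PhiF, h3, h2 h4, hFc]
          congr 1
          rw [map_sub, map_add, hlr a ha, add_zero, map_sub]
        · have h5 : PsiF p v F D r φ y = 0 := by rw [PsiF, if_neg h4]
          rw [PhiF, PhiF, h3, h5, zero_mul, zero_mul])
      (by
        intro y
        by_cases h4 : Act p v F D r y
        · rw [PsiF, if_pos h4]; exact hφ0 _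
        · rw [PsiF, if_neg h4])
      (by
        intro y hy
        rw [hZn] at hy
        obtain ⟨K₀, hK₀, hK₀c, hK₀n⟩ := exists_cpt hG.cov hv hy
        refine ⟨K₀, hK₀, (hLF K₀ hK₀c hK₀n).subset ?_⟩
        rintro a ⟨g', hg', y', hy', h1⟩
        have h2 : PsiF p v F D r φ (g'⁻¹ • y') ≠ 0 := h1.elim (fun h => phi_act h) id
        obtain ⟨b', hb', hs'⟩ := (psi_act h2).1
        exact ⟨g', hg', y', hy', b', ball_subset_ball hrr₀ hb', hs'⟩)
      (by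
        intro y hy
        rw [hZn] at hy
        have he : At (chartAt (Cm n) (p y) : Chart n X) (p y) :=
          ⟨chart_mem_atlas _ _, mem_chart_source _ _⟩
        exact (phi_local hm hG hv hFc hd hFa hc ht hE hρ₀ hφs hφ lr hform he hy).1)
      (by
        intro y e he hy
        rw [hZn] at hy
        exact (phi_local hm hG hv hFc hd hFa hc ht hE hρ₀ hφs hφ lr hform he hy).2)
    have hx₀ : p y₀ ∉ Z := (hZn y₀).2 hNZ₀
    have hpos : 0 < G' (p y₀) := by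
      refine hG'p y₀ hx₀ ?_
      rw [PsiF, if_pos hAct₀, hb₀]
      exact bump.pos_of_mem_ball (mem_ball_self (by simp only [bump]; linarith))
    obtain ⟨ζ, hζ1, hζ2⟩ := hQs x hx
    have h1 := hA n X w hw Z hZcl s ρ hρ C u hu (alphaF p F lr)
      (alphaF_isAlpha hG hFc lr hFa) F' G' 2 hF'2 hG'0 hF's hG'c hfor e₀ (p y₀) he₀ hx₀ hrank
      hpos ζ ((hker ζ).2 hζ1)
    have h2 : ∑ j, alphaF p F lr e₀ (e₀ (p y₀)) j * ζ j = cpx lr x / 2 := by
      rw [← hζ2, ← dz_lr_sum hf₀.differentiableAt]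
      refine Finset.sum_congr rfl fun j _ => ?_
      rw [alphaF_eq hG hFc lr he₀ hf₀ hf₀e j]
    rw [h2] at h1
    have h3 : cpx lr x = 0 := by
      rcases div_eq_zero_iff.1 h1 with h | h
      · exact h
      · norm_num at h
    rw [← cpx_re, h3, Complex.zero_re]
  -- the periods of `S` lie in `Q`
  have hSQ : ∀ a ∈ S, c a ∈ D.Q D.b₀ := by
    intro a ha
    have hpa : p (a • y₀) = p y₀ := ((hG.orb _ _).2 ⟨a, rfl⟩).symm
    obtain ⟨e', β', he', hβ', hβ'b, hev'⟩ := hSh a ha y₀ D.b₀ (mem_ball_self hr₀) hNZ₀ hsh₀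
    obtain ⟨e'', β'', he'', hβ'', hβ''b, hev''⟩ := hsh₀
    have h1 := hev'.self_of_nhds.2
    have h2 := hev''.self_of_nhds.2
    rw [hβ'b, hFc] at h1
    rw [hβ''b] at h2
    have h3 := Submodule.sub_mem _ h1 h2
    have h4 : F y₀ + c a - D.t D.b₀ - (F y₀ - D.t D.b₀) = c a := by abel
    rwa [h4] at h3
  -- the conclusion
  have hbot := hN.max (D.Q D.b₀) (by
    intro x hx
    by_contra hcon
    obtain ⟨lr, h1, h2⟩ := Submodule.exists_le_ker_of_notMem hcon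
    set lr' : Cm q →L[ℝ] ℝ := LinearMap.toContinuousLinearMap lr with hlr'
    refine h1 (key lr' (fun a ha => ?_) x hx)
    have h3 : c a ∈ Submodule.span ℝ ({v | ∃ g, (∀ k ∈ K, g * k = k * g) ∧ c g = v} ∩
        (D.Q D.b₀ : Set (Cm q))) :=
      Submodule.subset_span ⟨⟨a, hSK a ha, rfl⟩, hSQ a ha⟩
    exact LinearMap.mem_ker.1 (h2 h3))
  have h1 : D.N D.b₀ (Pi.single ⟨0, hk⟩ 1) ∈ D.Q D.b₀ := ⟨_, rfl⟩
  rw [hbot, Submodule.mem_bot] at h1
  have h2 : (Pi.single ⟨0, hk⟩ 1 : Cm k) = 0 := D.inj (by rw [h1, map_zero])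
  have h3 := congrFun h2 ⟨0, hk⟩
  simp at h3

/-- **C-STK** for `NPkg0` -/
theorem cstk0 : CStk0Stmt :=
  cstk0_of Vale.Agent.P284.H395.stkA Vale.Agent.P284.H998.stkUStmt

end Vale.Agent.P284.H988.N
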