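import Vale.Agent.P284.H988.N.Lim

/-!
# P284 (helper988), program N, module N5: from the limit form to the leaf data of full rank, for `NPkg0`
-/

open scoped Manifold ContDiff Topology
open Filter Set Metric

noncomputable section

set_option linter.unusedSectionVars false

namespace Vale.Agent.P284.H988.N

open Vale.Agent.P272.K Vale.Agent.P284.H894 Vale.Agent.P284.H894.G Vale.Agent.P284.H894.V
  Vale.Agent.P284.H894.W Vale.Agent.P284.H573 Vale.Agent.P284.H213.Grp Vale.Agent.P284.H213.Q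
  Vale.Agent.P284.H619 Vale.Agent.P284.H378 Vale.Agent.P284.H998 Vale.Agent.P284.H501.Core
  Vale.Agent.P284.H573.DK Vale.Agent.P284.H119.Kaz Vale.Agent.P284.H837 Vale.Agent.P284.H213.T3
  Vale.Agent.P284.H395 Vale.Agent.P284.H501.T Vale.Agent.P284.H478.G Vale.Agent.P284.H885.Ker

section
variable {n q : ℕ} {X E Γ W : Type} [TopologicalSpace X] [ChartedSpace (Cm n) X]
  [TopologicalSpace E] [Group Γ] [MulAction Γ E]
  [NormedAddCommGroup W] [InnerProductSpace ℂ W]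

/-- no nonzero vectors in all images of `Θ`, over an open set -/
def NulP (p : E → X) (F : E → Cm q) (Θ : E → Chart n X → (Cm n →L[ℂ] W)) : Prop :=
  ∀ O : Set E, IsOpen O → O.Nonempty →
    (∀ y₀ ∈ O, ∃ a : W, a ≠ 0 ∧ ∀ᶠ y in 𝓝 y₀, F y = F y₀ →
      ∃ e, At e (p y) ∧ ∃ ξ ∈ VS p F y e, Θ y e ξ = a) → False

/-- rigidity for all leaf data of `(F, Θ)` -/
def DKAll (p : E → X) (F : E → Cm q) (c : Γ → Cm q) (K : Subgroup Γ) (π : Γ →* (W ≃ₗᵢ[ℂ] W))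
    (Θ : E → Chart n X → (Cm n →L[ℂ] W)) : Prop :=
  ∀ (r s k m : ℕ) (H : Type) [NormedAddCommGroup H] [InnerProductSpace ℂ H] [CompleteSpace H]
    (v : E → Chart n X → (Fin (q + r) → Cm n) → H) (U : Γ → (H →ₗᵢ[ℂ] H))
    (N : Cm k →L[ℂ] Cm q) (𝒢 : Set E), LeafE s p F m v U π Θ N 𝒢 →
    DKP p F c K m v U π Θ N s 𝒢

/-- `just` for the generic kernel of `Θ` -/
def JustK (p : E → X) (F : E → Cm q) (K : Subgroup Γ) (π : Γ →* (W ≃ₗᵢ[ℂ] W))
    (Θ : E → Chart n X → (Cm n →L[ℂ] W)) : Prop :=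
  ∀ N₀ : Subgroup Γ, (∀ k, k ∈ N₀ ↔ k ∈ K ∧ ∀ y, Reg (n := n) p F y → y ∈ Fix p F π Θ k) →
    N₀.Normal → N₀ ≤ K → N₀ ≠ ⊥ → (N₀.subgroupOf K).FiniteIndex

/-- The leaf data of full rank exist. -/
def LeafX (q : ℕ) (p : E → X) (F : E → Cm q) (π : Γ →* (W ≃ₗᵢ[ℂ] W))
    (Θ : E → Chart n X → (Cm n →L[ℂ] W)) : Prop :=
  ∃ (r m : ℕ) (H : Type) (_ : NormedAddCommGroup H) (_ : InnerProductSpace ℂ H)
    (_ : CompleteSpace H) (v : E → Chart n X → (Fin (q + (r + 1)) → Cm n) → H)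
    (U : Γ → (H →ₗᵢ[ℂ] H)) (N : Cm 0 →L[ℂ] Cm q) (𝒢 : Set E), 𝒢.Nonempty ∧
    LeafE (q + (r + 1)) p F m v U π Θ N 𝒢

end

section
variable {n q : ℕ} {X : Type} [TopologicalSpace X] [T2Space X] [CompactSpace X] [ConnectedSpace X]
  [ChartedSpace (Cm n) X] [IsManifold 𝓘(ℂ, Cm n) ω X]
  {w : Chart n X → Cm n → Matrix (Fin n) (Fin n) ℂ}
  {E Γ : Type} [TopologicalSpace E] [ConnectedSpace E] [Group Γ] [MulAction Γ E]
  {p : E → X} {F : E → Cm q} {c : Γ → Cm q} {K : Subgroup Γ}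
  {W : Type} [NormedAddCommGroup W] [InnerProductSpace ℂ W] [CompleteSpace W]
  {π : Γ →* (W ≃ₗᵢ[ℂ] W)} {S : E → Chart n X → Cm n [⋀^Fin (q + 1)]→L[ℂ] W}
  {Θ : E → Chart n X → (Cm n →L[ℂ] W)} {M₀ : Set (Cm q)}

/-- **NUL**, for `K` whose finite dimensional real representations have finite range -/
theorem nulP_of_finRep (hG : IsGalois Γ p) (hF : ∃ B, HolB p w F B)
    (hc : ∀ g y, F (g • y) = F y + c g) (hR : ∃ y, Reg (n := n) p F y)
    (hGC : GenConn (n := n) p F) (hN : KPkg Γ q c K) (hfr : FinRep K) (hM₀ : IsMeagre M₀)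
    (hpot : ∀ t ∉ M₀, ∃ u : E → W, VPot p F t W Θ u ∧ VEqui p F t K π Θ u) : NulP p F Θ := by
  intro O hO hOne hOa
  obtain ⟨B, hFB⟩ := hF
  obtain ⟨T, hTc, hTi, hT⟩ := hGC
  obtain ⟨y₁, hy₁O, hy₁⟩ := (reg_dense' hG.cov hFB hR).inter_open_nonempty O hO hOne
  have h1 : F '' O ∈ 𝓝 (F y₁) := by
    rw [← H885.Ker.reg_map hG.cov hFB hy₁]
    exact Filter.image_mem_map (hO.mem_nhds hy₁O)
  have hTm : IsMeagre T := by
    have : IsNowhereDense T := by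
      rw [IsNowhereDense, hTc.closure_eq, hTi]
    exact this.isMeagre
  have h2 : Dense (T ∪ M₀)ᶜ := dense_of_mem_residual (hTm.union hM₀)
  obtain ⟨t, ht1, ht2⟩ := h2.inter_nhds_nonempty h1
  obtain ⟨y₀, hy₀, rfl⟩ := ht2
  have ht : F y₀ ∉ T ∧ F y₀ ∉ M₀ :=
    ⟨fun h => ht1 (Or.inl h), fun h => ht1 (Or.inr h)⟩
  obtain ⟨a, ha, hev⟩ := hOa y₀ hy₀
  obtain ⟨u, hu1, hu2⟩ := hpot _ ht.2
  have hHE : HolE n p F := fun y e he => by
    obtain ⟨f, h1, h2⟩ := H221.holB_an hFB y he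
    exact ⟨f, h2, h1⟩
  exact ha (nul_of hG hHE hc hN.sub hfr
    (fun K' _ hfi => exists_compact_fib' hG hHE hc hN.lat hN.fi hfi (F y₀))
    (hT _ ht.1).1 (hT _ ht.1).2 hu1 hu2 rfl hev)

/-- rigidity, for `K` whose finite dimensional real representations have finite range -/
theorem dkAll_of_finRep (hG : IsGalois Γ p) (hF : ∃ B, HolB p w F B)
    (hc : ∀ g y, F (g • y) = F y + c g)
    (hGC : GenConn (n := n) p F) (hN : NPkg0 Γ q c K) (hfr : FinRep K) (hM₀ : IsMeagre M₀)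
    (hTh : ThE p F K π Θ M₀) : DKAll p F c K π Θ := by
  intro r s k m H _ _ _ v U N 𝒢 hL
  exact dkp_of_finRep n q r k s m X w E Γ p hG F c K hF hc hN hfr hGC W H π Θ M₀ hM₀ hTh v U N 𝒢 hL

/-- **From the limit form to the leaf data of full rank.** -/
theorem leafX_of (hNS : NS2Stmt) (hw : IsKahler w) (hG : IsGalois Γ p) (hF : ∃ B, HolB p w F B)
    (hc : ∀ g y, F (g • y) = F y + c g) (hR : ∃ y, Reg (n := n) p F y)
    (hN : NPkg0 Γ q c K) (hS : SRel p F π S Θ)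
    (hπ : ∀ g, (∀ k ∈ K, g * k = k * g) → π g = 1) (hnul : NulP p F Θ)
    (hdk : DKAll p F c K π Θ) (hker : GKer p F K π Θ) : LeafX q p F π Θ := by
  rcases hNS n X w hw E Γ p hG q F c hF hc hR W π S Θ hS with hB | hL
  · obtain ⟨O, hO, hOne, hOa⟩ := hB
    exact absurd hOa (hnul O hO hOne)
  · obtain ⟨r, s, k, m, H, i1, i2, i3, v, U, N, 𝒢, hne, hL⟩ := hL
    rcases Nat.eq_zero_or_pos k with hk | hk
    · subst hk
      have hs : q + (r + 1) = s := by simpa using hL.dim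
      subst hs
      exact ⟨r, m, H, i1, i2, i3, v, U, N, 𝒢, hne, hL⟩
    · exfalso
      exact c0 n q (r + 1) k s m X w hw E Γ p hG F c K hF hc hN W H π Θ hπ v U N 𝒢
        { toLeafE := hL, k_pos := hk } hker (hdk (r + 1) s k m H v U N 𝒢 hL)

/-- the generic kernel -/
theorem gker_of_srel (hG : IsGalois Γ p) (hF : ∃ B, HolB p w F B)
    (hc : ∀ g y, F (g • y) = F y + c g) (hR : ∃ y, Reg (n := n) p F y)
    (hGC : GenConn (n := n) p F) (hN : KPkg Γ q c K) (hS : SRel p F π S Θ) (hM₀ : IsMeagre M₀)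
    (hpot : ∀ t ∉ M₀, ∃ u : E → W, VPot p F t W Θ u ∧ VEqui p F t K π Θ u)
    (hj : JustK p F K π Θ) : GKer p F K π Θ := by
  obtain ⟨B, hFB⟩ := hF
  exact gker_of hG ⟨B, hFB⟩ hc hN hGC hM₀ (thE_of hG hFB hc hS hpot) (th_ne hG.cov hFB hR hS) hj

/-- **One-stop theorem**, for `K` whose finite dimensional real representations have finite range. -/
theorem leafX_fr (hNS : NS2Stmt) (hw : IsKahler w) (hG : IsGalois Γ p) (hF : ∃ B, HolB p w F B)
    (hc : ∀ g y, F (g • y) = F y + c g) (hR : ∃ y, Reg (n := n) p F y)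
    (hGC : GenConn (n := n) p F) (hN : NPkg0 Γ q c K) (hfr : FinRep K) (hS : SRel p F π S Θ)
    (hπ : ∀ g, (∀ k ∈ K, g * k = k * g) → π g = 1) (hM₀ : IsMeagre M₀)
    (hpot : ∀ t ∉ M₀, ∃ u : E → W, VPot p F t W Θ u ∧ VEqui p F t K π Θ u)
    (hj : JustK p F K π Θ) :
    LeafX q p F π Θ ∧ GKer p F K π Θ ∧ DKAll p F c K π Θ := by
  have hF' := hF
  obtain ⟨B, hFB⟩ := hF'
  have h1 := gker_of_srel hG hF hc hR hGC hN.kpkg hS hM₀ hpot hj
  have h2 := dkAll_of_finRep (c := c) hG hF hc hGC hN hfr hM₀ (thE_of hG hFB hc hS hpot)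
  exact ⟨leafX_of hNS hw hG hF hc hR hN hS hπ
    (nulP_of_finRep hG hF hc hR hGC hN.kpkg hfr hM₀ hpot) h2 h1, h1, h2⟩

/-- **LFin** for every form with the leaf data of full rank -/
theorem lfin0 {r m : ℕ} {H : Type} [NormedAddCommGroup H] [InnerProductSpace ℂ H] [CompleteSpace H]
    (hw : IsKahler w) (hG : IsGalois Γ p) (hF : ∃ B, HolB p w F B)
    (hc : ∀ g y, F (g • y) = F y + c g) (hN : NPkg0 Γ q c K)
    (hπ : ∀ g, (∀ k ∈ K, g * k = k * g) → π g = 1)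
    {v : E → Chart n X → (Fin (q + r) → Cm n) → H} {U : Γ → (H →ₗᵢ[ℂ] H)}
    {N : Cm 0 →L[ℂ] Cm q} {𝒢 : Set E} (hL : LeafE (q + r) p F m v U π Θ N 𝒢)
    (hker : GKer p F K π Θ) (hdk : DKAll p F c K π Θ) : LFin Γ m p v F :=
  lfin0_of hG.cov hL.form hc hN N fun D hD S hS =>
    lf0 n q r 0 (q + r) m X w hw E Γ p hG F c K hF hc hN W H π Θ hπ v U N 𝒢 hL hker
      (hdk r (q + r) 0 m H v U N 𝒢 hL) D hD S hS

end

end Vale.Agent.P284.H988.N
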