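import Vale.Agent.P284.H501.T.UniT
import Vale.Agent.P284.H988.N.LF
import Vale.Agent.P284.H988.N.DK
import Vale.Agent.P284.H988.N.Ker
import Vale.Agent.P284.H988.N.Fol

/-!
# P284 (helper988), program N, module N5: the limit for `NPkg0`, LFin from LF for `NPkg0`
-/

open scoped Manifold ContDiff Topology
open Filter Set Metric

noncomputable section

set_option linter.unusedSectionVars false

namespace Vale.Agent.P284.H988.N

open Vale.Agent.P272.K Vale.Agent.P284.H894 Vale.Agent.P284.H894.G Vale.Agent.P284.H894.V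
  Vale.Agent.P284.H894.W Vale.Agent.P284.H573 Vale.Agent.P284.H213.Grp Vale.Agent.P284.H213.Q
  Vale.Agent.P284.H619 Vale.Agent.P284.H378 Vale.Agent.P284.H998 Vale.Agent.P284.H501.Core
  Vale.Agent.P284.H573.DK Vale.Agent.P284.H119.Kaz Vale.Agent.P284.H837 Vale.Agent.P284.H213.T3
  Vale.Agent.P284.H395 Vale.Agent.P284.H501.T Vale.Agent.P284.H478.G

/-- (helper275) For normalised data the centralizer of `K` is generated by finitely many central elements. -/
theorem exists_gens0 {Γ : Type} [Group Γ] {q : ℕ} {c : Γ → Cm q} {K : Subgroup Γ}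
    (h : NPkg0 Γ q c K) : ∃ (m : ℕ) (z : Fin m → Γ), (∀ i g, z i * g = g * z i) ∧
      ∀ g, (∀ k ∈ K, g * k = k * g) → g ∈ Subgroup.closure (Set.range z) := by
  have hlat := h.lat
  have hc1 : c 1 = 0 := hlat.map_one
  set D : Subgroup Γ := Subgroup.centralizer (K : Set Γ) with hD
  have hDm : ∀ g, g ∈ D ↔ ∀ k ∈ K, g * k = k * g := by
    intro g
    rw [hD, Subgroup.mem_centralizer_iff]
    exact ⟨fun h k hk => (h k hk).symm, fun h k hk => (h k hk).symm⟩
  have hinj : ∀ g ∈ D, c g = 0 → g = 1 := by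
    intro g hg hg0
    refine h.cent K le_rfl ?_ g hg0 ((hDm g).1 hg)
    rw [Subgroup.subgroupOf_self]
    infer_instance
  let L : Submodule ℤ (Cm q) := AddSubgroup.toIntSubmodule
    { carrier := c '' (D : Set Γ)
      add_mem' := by
        rintro _ _ ⟨g, hg, rfl⟩ ⟨h, hh, rfl⟩
        exact ⟨g * h, D.mul_mem hg hh, hlat.add g h⟩
      zero_mem' := ⟨1, D.one_mem, hc1⟩
      neg_mem' := by rintro _ ⟨g, hg, rfl⟩; exact ⟨g⁻¹, D.inv_mem hg, hlat.map_inv g⟩ }
  have hmem : ∀ x : L, ∃ g ∈ D, c g = (x : Cm q) := fun x => x.2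
  have hmem' : ∀ g ∈ D, c g ∈ L := fun g hg => ⟨g, hg, rfl⟩
  have : DiscreteTopology L := by
    refine discreteTopology_of_isOpen_singleton_zero ?_
    refine isOpen_singleton_of_finite_mem_nhds 0 (s := Metric.closedBall 0 1) ?_ ?_
    · exact Metric.closedBall_mem_nhds _ one_pos
    · refine Set.Finite.of_injOn (t := {v : Cm q | (∃ g, c g = v) ∧ ‖v‖ ≤ 1})
        (f := Subtype.val) ?_ Subtype.val_injective.injOn (hlat.disc 1)
      intro x hx
      obtain ⟨g, -, hg⟩ := hmem x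
      exact ⟨⟨g, hg⟩, mem_closedBall_zero_iff.1 hx⟩
  have hfin : Module.Finite ℤ L := inferInstance
  obtain ⟨s, hs⟩ := hfin.fg_top
  choose z hzD hzc using hmem
  let e : Fin s.card ≃ s := s.equivFin.symm
  refine ⟨s.card, fun i => z (e i), fun i g => h.central _ ((hDm _).1 (hzD _)) g, fun g hg => ?_⟩
  have hgD : g ∈ D := (hDm g).2 hg
  have hle : Subgroup.closure (Set.range fun i => z (e i)) ≤ D := by
    rw [Subgroup.closure_le]
    rintro _ ⟨i, rfl⟩
    exact hzD _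
  have key : ∀ x : L, ∃ y ∈ Subgroup.closure (Set.range fun i => z (e i)), c y = (x : Cm q) := by
    intro x
    have hx : x ∈ Submodule.span ℤ (s : Set L) := by rw [hs]; trivial
    induction hx using Submodule.span_induction with
    | mem x hx =>
      refine ⟨z x, Subgroup.subset_closure ⟨e.symm ⟨x, hx⟩, ?_⟩, hzc x⟩
      simp only [Equiv.apply_symm_apply]
    | zero => exact ⟨1, one_mem _, hc1⟩
    | add x y _ _ ihx ihy =>
      obtain ⟨a, ha, ha'⟩ := ihx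
      obtain ⟨b, hb, hb'⟩ := ihy
      exact ⟨a * b, mul_mem ha hb, by rw [hlat.add, ha', hb']; rfl⟩
    | smul n x _ ih =>
      obtain ⟨a, ha, ha'⟩ := ih
      refine ⟨a ^ n, zpow_mem ha n, ?_⟩
      rw [hlat.map_zpow, ha']
      exact Int.cast_smul_eq_zsmul ℝ n (x : Cm q)
  obtain ⟨y, hy, hyc⟩ := key ⟨c g, hmem' g hgD⟩
  have h1 : g * y⁻¹ = 1 := by
    refine hinj _ (D.mul_mem hgD (D.inv_mem (hle hy))) ?_
    rw [hlat.add, hlat.map_inv, hyc]
    simp
  rw [mul_inv_eq_one] at h1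
  rw [h1]
  exact hy

/-- the limit for normalised data, `K` without property (T) -/
def LimNT0 (q : ℕ) : Prop :=
  ∀ (n : ℕ) (X : Type) [TopologicalSpace X] [T2Space X] [CompactSpace X] [ConnectedSpace X]
    [ChartedSpace (Cm n) X] [IsManifold 𝓘(ℂ, Cm n) ω X]
    (w : Chart n X → Cm n → Matrix (Fin n) (Fin n) ℂ), IsKahler w →
    ∀ (E Γ : Type) [TopologicalSpace E] [ConnectedSpace E] [Group Γ] [MulAction Γ E]
      (p : E → X), IsGalois Γ p →
    ∀ (F : E → Cm q) (c : Γ → Cm q) (K : Subgroup Γ), (∃ B, HolB p w F B) →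
      (∀ g y, F (g • y) = F y + c g) → (∃ y, Reg (n := n) p F y) → GenConn (n := n) p F →
      NPkg0 Γ q c K → ¬ Kazhdan K →
    ∃ (W : Type) (_ : NormedAddCommGroup W) (_ : InnerProductSpace ℂ W) (_ : CompleteSpace W)
      (π : Γ →* (W ≃ₗᵢ[ℂ] W)) (S : E → Chart n X → Cm n [⋀^Fin (q + 1)]→L[ℂ] W)
      (Θ : E → Chart n X → (Cm n →L[ℂ] W)) (M₀ : Set (Cm q)),
      SRel p F π S Θ ∧ (∀ g, (∀ k ∈ K, g * k = k * g) → π g = 1) ∧ IsMeagre M₀ ∧
      ∀ t ∉ M₀, ∃ u : E → W, VPot p F t W Θ u ∧ VEqui p F t K π Θ u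

theorem limNT0_of {q : ℕ} (hLim : H366.LimAtT q) : LimNT0 q := by
  intro n X _ _ _ _ _ _ w hw E Γ _ _ _ _ p hG F c K hF hc hR hGC hN hKz
  obtain ⟨m₀, z, hz1, hz2⟩ := exists_gens0 hN
  obtain ⟨W, iW1, iW2, iW3, π, S, Θ, M₀, hS, hπz, -, hM₀, hpot'⟩ :=
    hLim n X w hw E Γ p hG F c K hF hc hR hGC hN.lat hN.normal hN.sub hN.fi hKz (Fin m₀) z hz1
  refine ⟨W, iW1, iW2, iW3, π, S, Θ, M₀, hS, fun g hg => ?_, hM₀, fun t ht => ?_⟩
  · have h1 : Subgroup.closure (Set.range z) ≤ π.ker := by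
      rw [Subgroup.closure_le]
      rintro _ ⟨i, rfl⟩
      exact hπz i
    exact h1 (hz2 g hg)
  · obtain ⟨u, h1, h2⟩ := hpot' t ht
    exact ⟨u, h1, h2 K hN.sub⟩

/-- if `K` does not have property (T), neither does `Γ` (normalised data) -/
theorem not_kazhdan_npkg0 {Γ : Type} [Group Γ] {q : ℕ} {c : Γ → Cm q} {K : Subgroup Γ}
    (hN : NPkg0 Γ q c K) (hKz : ¬ Kazhdan K) : ¬ Kazhdan Γ := by
  rintro ⟨S, ε, hε, h⟩
  obtain ⟨H, i1, i2, i3, π, ξ, h1, h2, h3⟩ := H338.Ind.exists_rep_lat hN.lat K hN.normal hN.sub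
    hN.fi hKz (S : Set Γ) S.finite_toSet hε
  obtain ⟨η, hη, hη'⟩ := h H π ξ h1 fun s hs => h2 s hs
  exact hη (h3 η fun k _ => hη' k)

/-- the limit for normalised data, `q = 0` -/
theorem limNT0_zero (hL : LimKStmt) : LimNT0 0 := by
  intro n X _ _ _ _ _ _ w hw E Γ _ _ _ _ p hG F c K hF hc hR hGC hN hKz
  obtain ⟨W, iW1, iW2, iW3, π, Θ, u, hΘ, hπ, hpot, hb, hne⟩ :=
    hL n X w hw E Γ p hG (not_kazhdan_npkg0 hN hKz)
  refine ⟨W, iW1, iW2, iW3, π, _, Θ, ∅, sRel0 hG hΘ hπ hne F, fun g hg => ?_,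
    IsMeagre.empty, fun t _ => ⟨u, vpot0 hΘ hpot F t, vequi0 hπ hb F t K⟩⟩
  have : (K.subgroupOf K).FiniteIndex := by
    rw [Subgroup.subgroupOf_self]
    infer_instance
  rw [hN.cent K le_rfl inferInstance g (Subsingleton.elim _ _) hg, map_one]

/-- the limit for all `q` -/
theorem limNT0_all (hL : LimKStmt) (hLim : ∀ q, 1 ≤ q → H366.LimAtT q) (q : ℕ) : LimNT0 q := by
  rcases Nat.eq_zero_or_pos q with rfl | hq
  · exact limNT0_zero hL
  · exact limNT0_of (hLim q hq)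

section
variable {n q R m : ℕ} {X E Γ H : Type} [TopologicalSpace X] [T2Space X] [ChartedSpace (Cm n) X]
  [IsManifold 𝓘(ℂ, Cm n) ω X] [TopologicalSpace E]
  [NormedAddCommGroup H] [InnerProductSpace ℂ H] [CompleteSpace H] {p : E → X}
  {v : E → Chart n X → (Fin R → Cm n) → H} [Group Γ] [MulAction Γ E] {F : E → Cm q} {c : Γ → Cm q}
  {K : Subgroup Γ}

/-- **LFin** from LF -/
theorem lfin0_of (hp : IsCoveringMap p) (hv : HForm n R m p H v)
    (hc : ∀ g y, F (g • y) = F y + c g) (hN : NPkg0 Γ q c K) (N : Cm 0 →L[ℂ] Cm q)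
    (hlf : ∀ (D : LeafDat q R 0 H), (∀ x, D.N x = N) → ∀ S : Subgroup Γ, IsSub c K N S →
      ∃ r₀ > 0, ∀ K₀ : Set E, IsCompact K₀ → (∀ y ∈ K₀, NZ p v y) →
      {a : Γ ⧸ S | ∃ g : Γ, (g : Γ ⧸ S) = a ∧ ∃ y ∈ K₀, ∃ b ∈ ball D.b₀ r₀,
        Sh p v F D (g⁻¹ • y) b}.Finite) : LFin Γ m p v F := by
  have hNr : ∀ x : Cm q, x ∈ LinearMap.range (N : Cm 0 →ₗ[ℂ] Cm q) ↔ x = 0 := by
    intro x
    constructor
    · rintro ⟨z, rfl⟩
      have : z = 0 := Subsingleton.elim _ _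
      rw [this, map_zero]
    · rintro rfl
      exact zero_mem _
  have hS : IsSub c K N (⊥ : Subgroup Γ) := by
    intro g
    rw [Subgroup.mem_bot, hNr]
    constructor
    · rintro rfl
      refine ⟨fun h _ => by rw [one_mul, mul_one], ?_⟩
      have := hN.lat.add 1 1
      rw [mul_one] at this
      have h2 : c 1 + 0 = c 1 + c 1 := by rw [add_zero]; exact this
      exact (add_left_cancel h2).symm
    · rintro ⟨h1, h2⟩
      have : (K.subgroupOf K).FiniteIndex := by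
        rw [Subgroup.subgroupOf_self]
        infer_instance
      exact hN.cent K le_rfl inferInstance g h2 h1
  refine ⟨⊥, fun g hg y => ?_, fun g hg y e _ ξ => ?_, fun y₀ e b γ t h => ?_⟩
  · rw [Subgroup.mem_bot] at hg
    rw [hg, one_smul]
  · rw [Subgroup.mem_bot] at hg
    rw [hg, one_smul]
  · set D : LeafDat q R 0 H :=
      { b₀ := b (e (p y₀)), γ := γ, t := t, N := fun _ => N, γan := h.nf.γan, imm := h.nf.imm,
        tan := h.tan, Nan := analyticAt_const, inj := fun _ _ _ => Subsingleton.elim _ _ } with hD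
    obtain ⟨r₀, hr₀, hfin⟩ := hlf D (fun _ => rfl) ⊥ hS
    have : LocallyCompactSpace X := ChartedSpace.locallyCompactSpace (Cm n) X
    obtain ⟨K₀, hK₀, hK₀c, hK₀z⟩ := exists_cpt hp (nz_near hp hv h.nf)
    refine ⟨r₀, hr₀, K₀, hK₀, (hfin K₀ hK₀c hK₀z).subset ?_⟩
    rintro a ⟨g, hg, y, hy, x, hx, hsh⟩
    refine ⟨g, hg, y, hy, x, hx, ?_⟩
    obtain ⟨e', β, h1, h2, h3, h4⟩ := hsh
    refine ⟨e', β, h1, h2, h3, ?_⟩
    filter_upwards [h4] with y' h5
    refine ⟨h5.1, ?_⟩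
    rw [h5.2]
    show t (β (e' (p y'))) - t (β (e' (p y'))) ∈ _
    rw [sub_self]
    exact zero_mem _


end

end Vale.Agent.P284.H988.N
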